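import Mathlib

/-!
P131: moving an operator without hyperinvariant subspaces to every separable infinite-dimensional
complex Hilbert space.
-/

namespace Vale.Agent.P131.Transfer

open TopologicalSpace

universe u v

section basis

variable {H : Type u} [NormedAddCommGroup H] [InnerProductSpace ℂ H] [CompleteSpace H]

/-- a separable infinite-dimensional space has a Hilbert basis indexed by `ℕ` -/
theorem exists_natBasis [SeparableSpace H] (hH : ¬ FiniteDimensional ℂ H) :
    Nonempty (HilbertBasis ℕ ℂ H) := by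
  obtain ⟨w, b, hb⟩ := exists_hilbertBasis ℂ H
  have hd : ∀ x y : w, x ≠ y → (1 : ℝ) < dist (b x) (b y) := by
    intro x y h
    have h1 := b.orthonormal.1 x
    have h2 := b.orthonormal.1 y
    have h3 : inner ℂ (b x) (b y) = (0 : ℂ) := b.orthonormal.2 h
    have h4 := norm_sub_mul_self (𝕜 := ℂ) (b x) (b y)
    rw [h1, h2, h3, map_zero] at h4
    rw [dist_eq_norm]
    nlinarith [norm_nonneg (b x - b y)]
  have hc : Countable w := by
    have hdis : (Set.univ : Set w).PairwiseDisjoint fun x => Metric.ball (b x) (1 / 2) := by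
      intro x _ y _ hxy
      exact Metric.ball_disjoint_ball (by have := hd x y hxy; linarith)
    exact Set.countable_univ_iff.mp (hdis.countable_of_isOpen (fun x _ => Metric.isOpen_ball)
      (fun x _ => ⟨b x, Metric.mem_ball_self (by norm_num)⟩))
  have hi : Infinite w := by
    by_contra hfin
    rw [not_infinite_iff_finite] at hfin
    have : Fintype w := Fintype.ofFinite w
    exact hH (Module.Finite.of_basis b.toOrthonormalBasis.toBasis)
  obtain ⟨e⟩ := nonempty_equiv_of_countable (α := w) (β := ℕ)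
  refine ⟨HilbertBasis.mk (v := fun n => b (e.symm n))
    (b.orthonormal.comp _ e.symm.injective) ?_⟩
  rw [show Set.range (fun n => b (e.symm n)) = Set.range b from
    e.symm.surjective.range_comp (⇑b)]
  exact b.dense_span.ge

end basis

/-- one operator without hyperinvariant subspaces gives one on every separable
infinite-dimensional space -/
theorem exists_transitive_commutant_of
    {H₀ : Type u} [NormedAddCommGroup H₀] [InnerProductSpace ℂ H₀] [CompleteSpace H₀]
    [SeparableSpace H₀] (h₀ : ¬ FiniteDimensional ℂ H₀)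
    (T₀ : H₀ →L[ℂ] H₀) (hns : ∀ c : ℂ, T₀ ≠ c • 1)
    (hT₀ : ∀ W : Submodule ℂ H₀, IsClosed (W : Set H₀) →
      (∀ A : H₀ →L[ℂ] H₀, A * T₀ = T₀ * A → ∀ v ∈ W, A v ∈ W) → W = ⊥ ∨ W = ⊤)
    {H : Type v} [NormedAddCommGroup H] [InnerProductSpace ℂ H] [CompleteSpace H]
    [SeparableSpace H] (hH : ¬ FiniteDimensional ℂ H) :
    ∃ T : H →L[ℂ] H, (∀ c : ℂ, T ≠ c • 1) ∧ ∀ W : Submodule ℂ H, IsClosed (W : Set H) →
      (∀ A : H →L[ℂ] H, A * T = T * A → ∀ v ∈ W, A v ∈ W) → W = ⊥ ∨ W = ⊤ := by
  obtain ⟨b₀⟩ := exists_natBasis h₀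
  obtain ⟨b⟩ := exists_natBasis hH
  let e : H₀ ≃ₗᵢ[ℂ] H := b₀.repr.trans b.repr.symm
  let f : H₀ →L[ℂ] H := e.toContinuousLinearEquiv
  let g : H →L[ℂ] H₀ := e.symm.toContinuousLinearEquiv
  have gf : ∀ x, g (f x) = x := fun x => e.symm_apply_apply x
  have fg : ∀ x, f (g x) = x := fun x => e.apply_symm_apply x
  refine ⟨f.comp (T₀.comp g), fun c hc => hns c ?_, fun W hW hinv => ?_⟩
  · refine ContinuousLinearMap.ext fun x => ?_
    have h := congrArg g (DFunLike.congr_fun hc (f x))
    simpa [gf] using h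
  · have h := hT₀ (W.comap (f : H₀ →ₗ[ℂ] H)) (hW.preimage f.continuous) ?_
    · refine h.imp (fun hb => ?_) (fun ht => ?_)
      · refine (Submodule.eq_bot_iff _).mpr fun v hv => ?_
        have : g v ∈ W.comap (f : H₀ →ₗ[ℂ] H) := by simpa [fg] using hv
        rw [hb, Submodule.mem_bot] at this
        rw [← fg v, this, map_zero]
      · refine Submodule.eq_top_iff'.mpr fun v => ?_
        have : g v ∈ W.comap (f : H₀ →ₗ[ℂ] H) := by rw [ht]; trivial
        simpa [fg] using this
    · intro A hA v hv
      simp only [Submodule.mem_comap, ContinuousLinearMap.coe_coe] at hv ⊢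
      have h1 := hinv (f.comp (A.comp g)) ?_ (f v) hv
      · simpa [gf] using h1
      · refine ContinuousLinearMap.ext fun x => ?_
        have := DFunLike.congr_fun hA (g x)
        simp only [ContinuousLinearMap.mul_def, ContinuousLinearMap.comp_apply, gf] at this ⊢
        rw [this]

end Vale.Agent.P131.Transfer
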