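import Vale.Agent.P131.Bridge.Main
import Vale.Agent.P131.Transfer

/-!
P131: the combination, from the interface statements to every separable infinite-dimensional space.
-/

namespace Vale.Agent.P131

open TopologicalSpace

universe u

/-- from the core statement to a transitive commutant on every separable infinite-dimensional space -/
theorem transitive_commutant_of_core (hcore : CoreSpec)
    {H : Type u} [NormedAddCommGroup H] [InnerProductSpace ℂ H] [CompleteSpace H]
    [SeparableSpace H] (hH : ¬ FiniteDimensional ℂ H) :
    ∃ T : H →L[ℂ] H, (∀ c : ℂ, T ≠ c • 1) ∧ ∀ W : Submodule ℂ H, IsClosed (W : Set H) →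
      (∀ A : H →L[ℂ] H, A * T = T * A → ∀ v ∈ W, A v ∈ W) → W = ⊥ ∨ W = ⊤ := by
  obtain ⟨K, hK⟩ := hcore
  have := hs_separable K
  exact Transfer.exists_transitive_commutant_of (hs_not_finiteDimensional K) (opT K)
    opT_not_scalar (opT_transitive hK) hH

end Vale.Agent.P131
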