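import Vale.Agent.P131.Defs

/-!
P131: block matrices along an equivalence `I ≃ V × R`, and the normalised norms.
-/

namespace Vale.Agent.P131

open Matrix
open scoped ComplexOrder

noncomputable section

variable {I V R : Type*} [DecidableEq R]

/-- block diagonal matrix along `e` -/
def blk (e : I ≃ V × R) (f : R → Matrix V V ℂ) : Matrix I I ℂ :=
  (Matrix.blockDiagonal f).submatrix e e

theorem blk_apply (e : I ≃ V × R) (f : R → Matrix V V ℂ) (a b : I) :
    blk e f a b = if (e a).2 = (e b).2 then f (e a).2 (e a).1 (e b).1 else 0 := by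
  simp [blk, Matrix.blockDiagonal_apply]

theorem blk_add (e : I ≃ V × R) (f g : R → Matrix V V ℂ) :
    blk e (f + g) = blk e f + blk e g := by
  simp [blk, Matrix.blockDiagonal_add, Matrix.submatrix_add]

theorem blk_sub (e : I ≃ V × R) (f g : R → Matrix V V ℂ) :
    blk e (f - g) = blk e f - blk e g := by
  simp [blk, Matrix.blockDiagonal_sub, Matrix.submatrix_sub]

theorem blk_smul (e : I ≃ V × R) (c : ℂ) (f : R → Matrix V V ℂ) :
    blk e (c • f) = c • blk e f := by
  simp [blk, Matrix.blockDiagonal_smul, Matrix.submatrix_smul]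

theorem blk_zero (e : I ≃ V × R) : blk e (0 : R → Matrix V V ℂ) = 0 := by
  simp [blk, Matrix.blockDiagonal_zero]

theorem blk_one [DecidableEq V] [DecidableEq I] (e : I ≃ V × R) :
    blk e (1 : R → Matrix V V ℂ) = 1 := by
  simp [blk, Matrix.blockDiagonal_one]

theorem blk_conjTranspose (e : I ≃ V × R) (f : R → Matrix V V ℂ) :
    (blk e f)ᴴ = blk e (fun r => (f r)ᴴ) := by
  simp [blk, Matrix.conjTranspose_submatrix, Matrix.blockDiagonal_conjTranspose]

theorem blk_mul [Fintype I] [Fintype V] [Fintype R] (e : I ≃ V × R) (f g : R → Matrix V V ℂ) :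
    blk e f * blk e g = blk e (fun r => f r * g r) := by
  unfold blk
  rw [Matrix.submatrix_mul_equiv, Matrix.blockDiagonal_mul]

omit [DecidableEq R] in
theorem sum_equiv_prod [Fintype I] [Fintype V] [Fintype R] {M : Type*} [AddCommMonoid M]
    (e : I ≃ V × R) (F : I → M) : ∑ a, F a = ∑ r, ∑ v, F (e.symm (v, r)) := by
  rw [← e.symm.sum_comp, Fintype.sum_prod_type]
  exact Finset.sum_comm

theorem blk_trace [Fintype I] [Fintype V] [Fintype R] (e : I ≃ V × R) (f : R → Matrix V V ℂ) :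
    (blk e f).trace = ∑ r, (f r).trace := by
  simp [Matrix.trace, sum_equiv_prod e, blk_apply]

/-- a block matrix times any matrix, entrywise -/
theorem blk_mul_apply [Fintype I] [Fintype V] [Fintype R] (e : I ≃ V × R)
    (f : R → Matrix V V ℂ) (Y : Matrix I I ℂ) (v : V) (r : R) (b : I) :
    (blk e f * Y) (e.symm (v, r)) b = ∑ u, f r v u * Y (e.symm (u, r)) b := by
  rw [Matrix.mul_apply, sum_equiv_prod e]
  simp [blk_apply]

theorem nsq_nonneg [Fintype I] (X : Matrix I I ℂ) : 0 ≤ nsq X := by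
  unfold nsq; positivity

theorem nsq_conjTranspose [Fintype I] (X : Matrix I I ℂ) : nsq Xᴴ = nsq X := by
  unfold nsq
  rw [Finset.sum_comm]
  simp [Matrix.conjTranspose_apply]

theorem nsq_blk [Fintype I] [Fintype V] [Fintype R] (e : I ≃ V × R) (f : R → Matrix V V ℂ) :
    nsq (blk e f) = (∑ r, nsq (f r)) / (Fintype.card R : ℝ) := by
  have hc : (Fintype.card I : ℝ) = (Fintype.card V : ℝ) * Fintype.card R := by
    rw [Fintype.card_congr e, Fintype.card_prod]; push_cast; ring
  have h : ∑ a, ∑ b, ‖blk e f a b‖ ^ 2 = ∑ r, ∑ v, ∑ u, ‖f r v u‖ ^ 2 := by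
    rw [sum_equiv_prod e]
    refine Finset.sum_congr rfl fun r _ => Finset.sum_congr rfl fun v _ => ?_
    rw [sum_equiv_prod e]
    simp [blk_apply, apply_ite (fun z : ℂ => ‖z‖ ^ 2)]
  simp only [nsq, h, hc, ← Finset.sum_div, div_div]

/-- the crude operator bound of a block matrix -/
theorem nsq_blk_mul_le [Fintype I] [Fintype V] [Fintype R] (e : I ≃ V × R)
    (f : R → Matrix V V ℂ) (C : ℝ) (hC : ∀ r, ∑ v, ∑ u, ‖f r v u‖ ^ 2 ≤ C ^ 2)
    (Y : Matrix I I ℂ) : nsq (blk e f * Y) ≤ C ^ 2 * nsq Y := by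
  unfold nsq
  rw [← mul_div_assoc]
  gcongr
  rw [Finset.sum_comm, Finset.sum_comm (f := fun a b => ‖Y a b‖ ^ 2), Finset.mul_sum]
  refine Finset.sum_le_sum fun b _ => ?_
  rw [sum_equiv_prod e, sum_equiv_prod e, Finset.mul_sum]
  refine Finset.sum_le_sum fun r _ => ?_
  have h1 : ∀ v, ‖(blk e f * Y) (e.symm (v, r)) b‖ ^ 2 ≤
      (∑ u, ‖f r v u‖ ^ 2) * ∑ u, ‖Y (e.symm (u, r)) b‖ ^ 2 := by
    intro v
    rw [blk_mul_apply]
    calc ‖∑ u, f r v u * Y (e.symm (u, r)) b‖ ^ 2
        ≤ (∑ u, ‖f r v u‖ * ‖Y (e.symm (u, r)) b‖) ^ 2 := by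
          gcongr
          exact (norm_sum_le _ _).trans_eq (by simp)
      _ ≤ _ := Finset.sum_mul_sq_le_sq_mul_sq _ _ _
  calc ∑ v, ‖(blk e f * Y) (e.symm (v, r)) b‖ ^ 2
      ≤ ∑ v, (∑ u, ‖f r v u‖ ^ 2) * ∑ u, ‖Y (e.symm (u, r)) b‖ ^ 2 :=
        Finset.sum_le_sum fun v _ => h1 v
    _ = (∑ v, ∑ u, ‖f r v u‖ ^ 2) * ∑ u, ‖Y (e.symm (u, r)) b‖ ^ 2 := by
        rw [Finset.sum_mul]
    _ ≤ C ^ 2 * ∑ u, ‖Y (e.symm (u, r)) b‖ ^ 2 := by
        gcongr; exact hC r

theorem nsq_mul_blk_le [Fintype I] [Fintype V] [Fintype R] (e : I ≃ V × R)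
    (f : R → Matrix V V ℂ) (C : ℝ) (hC : ∀ r, ∑ v, ∑ u, ‖f r v u‖ ^ 2 ≤ C ^ 2)
    (Y : Matrix I I ℂ) : nsq (Y * blk e f) ≤ C ^ 2 * nsq Y := by
  rw [← nsq_conjTranspose, Matrix.conjTranspose_mul, blk_conjTranspose, ← nsq_conjTranspose Y]
  refine nsq_blk_mul_le e _ C (fun r => ?_) _
  rw [Finset.sum_comm]
  simpa [Matrix.conjTranspose_apply] using hC r

variable (K : ℕ → ℕ)

/-- split off site `l` -/
def siteEquiv {m : ℕ} (l : Fin m) :
    Idx K m ≃ Site K l × ((j : {j : Fin m // j ≠ l}) → Site K (j : Fin m)) :=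
  Equiv.piSplitAt l fun j : Fin m => Site K j

theorem siteOp_eq_blk {m : ℕ} (l : Fin m) (M : Matrix (Site K l) (Site K l) ℂ) :
    siteOp K l M = blk (siteEquiv K l) (fun _ => M) := by
  ext a b
  simp only [siteOp, Matrix.of_apply, blk_apply, siteEquiv, Equiv.piSplitAt_apply]
  refine if_congr ?_ rfl rfl
  exact ⟨fun h => funext fun j => h j j.2, fun h j hj => congrFun h ⟨j, hj⟩⟩

theorem siteOp_mul {m : ℕ} (l : Fin m) (M N : Matrix (Site K l) (Site K l) ℂ) :
    siteOp K l M * siteOp K l N = siteOp K l (M * N) := by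
  simp [siteOp_eq_blk, blk_mul]

theorem siteOp_one {m : ℕ} (l : Fin m) : siteOp K l 1 = (1 : Lvl K m) := by
  rw [siteOp_eq_blk]; exact blk_one _

theorem siteOp_conjTranspose {m : ℕ} (l : Fin m) (M : Matrix (Site K l) (Site K l) ℂ) :
    (siteOp K l M)ᴴ = siteOp K l Mᴴ := by
  simp [siteOp_eq_blk, blk_conjTranspose]

theorem siteOp_add {m : ℕ} (l : Fin m) (M N : Matrix (Site K l) (Site K l) ℂ) :
    siteOp K l (M + N) = siteOp K l M + siteOp K l N := by
  simp only [siteOp_eq_blk, ← blk_add]; rfl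

theorem siteOp_sub {m : ℕ} (l : Fin m) (M N : Matrix (Site K l) (Site K l) ℂ) :
    siteOp K l (M - N) = siteOp K l M - siteOp K l N := by
  simp only [siteOp_eq_blk, ← blk_sub]; rfl

theorem siteOp_smul {m : ℕ} (l : Fin m) (c : ℂ) (M : Matrix (Site K l) (Site K l) ℂ) :
    siteOp K l (c • M) = c • siteOp K l M := by
  simp only [siteOp_eq_blk, ← blk_smul]; rfl

/-- operators at different sites commute -/
theorem siteOp_commute {m : ℕ} {l l' : Fin m} (h : l ≠ l') (M : Matrix (Site K l) (Site K l) ℂ)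
    (N : Matrix (Site K l') (Site K l') ℂ) : Commute (siteOp K l M) (siteOp K l' N) := by
  classical
  change _ = _
  ext a b
  simp only [Matrix.mul_apply, siteOp, Matrix.of_apply]
  by_cases hab : ∀ j, j ≠ l → j ≠ l' → a j = b j
  · rw [Finset.sum_eq_single (Function.update a l (b l)), Finset.sum_eq_single (Function.update a l' (b l'))]
    · have h1 : ∀ j, j ≠ l → a j = Function.update a l (b l) j := fun j hj => by simp [hj]
      have h2 : ∀ j, j ≠ l' → Function.update a l (b l) j = b j := fun j hj => by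
        by_cases hjl : j = l
        · subst hjl; simp
        · simp [hjl, hab j hjl hj]
      have h3 : ∀ j, j ≠ l' → a j = Function.update a l' (b l') j := fun j hj => by simp [hj]
      have h4 : ∀ j, j ≠ l → Function.update a l' (b l') j = b j := fun j hj => by
        by_cases hjl : j = l'
        · subst hjl; simp
        · simp [hjl, hab j hj hjl]
      rw [if_pos h1, if_pos h2, if_pos h3, if_pos h4]
      simp [h, h.symm, mul_comm]
    · intro c _ hc
      by_cases h1 : ∀ j, j ≠ l' → a j = c j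
      · rw [if_pos h1, if_neg, mul_zero]
        intro h2
        apply hc
        funext j
        by_cases hj : j = l'
        · subst hj; simp [h2 j h.symm]
        · simp [hj, h1 j hj]
      · rw [if_neg h1, zero_mul]
    · simp
    · intro c _ hc
      by_cases h1 : ∀ j, j ≠ l → a j = c j
      · rw [if_pos h1, if_neg, mul_zero]
        intro h2
        apply hc
        funext j
        by_cases hj : j = l
        · subst hj; simp [h2 j h]
        · simp [hj, h1 j hj]
      · rw [if_neg h1, zero_mul]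
    · simp
  · rw [Finset.sum_eq_zero, Finset.sum_eq_zero]
    · intro c _
      by_cases h1 : ∀ j, j ≠ l' → a j = c j
      · rw [if_pos h1, if_neg (fun h2 => hab fun j hj hj' => (h1 j hj').trans (h2 j hj)), mul_zero]
      · rw [if_neg h1, zero_mul]
    · intro c _
      by_cases h1 : ∀ j, j ≠ l → a j = c j
      · rw [if_pos h1, if_neg (fun h2 => hab fun j hj hj' => (h1 j hj).trans (h2 j hj')), mul_zero]
      · rw [if_neg h1, zero_mul]

/-- crude bounds for site operators -/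
theorem nsq_siteOp_mul_le {m : ℕ} (l : Fin m) (M : Matrix (Site K l) (Site K l) ℂ) (C : ℝ)
    (hC : ∑ v, ∑ u, ‖M v u‖ ^ 2 ≤ C ^ 2) (Y : Lvl K m) :
    nsq (siteOp K l M * Y) ≤ C ^ 2 * nsq Y ∧ nsq (Y * siteOp K l M) ≤ C ^ 2 * nsq Y := by
  rw [siteOp_eq_blk]
  exact ⟨nsq_blk_mul_le _ _ C (fun _ => hC) Y, nsq_mul_blk_le _ _ C (fun _ => hC) Y⟩

end

end Vale.Agent.P131
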