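import Vale.Agent.P131.Defs

/-!
P131: interfaces between the modules.

* `FiniteSpec` (in `Defs`): the finite lemma.
* `CompactSpec`: its compactness form.
* `TelescopeSpec`: the gauge bound.
* `WindowSpec`: choice of `K` and vanishing bias.
* `SiteSpec`: vanishing bias gives commutation with the site algebras.
* `CoreSpec`: the combination, used by the Hilbert space bridge.
-/

namespace Vale.Agent.P131

open Filter Topology
open scoped ComplexOrder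

noncomputable section

/-- quantitative form of `FiniteSpec` -/
def CompactSpec : Prop :=
  ∀ (p : ℕ) (w : Fin (2 * p + 1) → ℝ), (∀ j, 0 < w j) → ∀ i : Fin (2 * p + 1),
    ∃ (L : ℝ) (B : Bits (2 * p + 1) × Bits (2 * p + 1) →
        Matrix (Bits (2 * p + 1)) (Bits (2 * p + 1)) ℂ),
      0 ≤ L ∧ (∀ q, Commute (B q) (Tw w)) ∧
      ∀ A, PosContr A → bias i A ≤ (Nat.centralBinom p : ℝ) / 4 ^ p + 1 / (p + 1) +
        L * (nsq (A - A * A) + ∑ q, nsq ((1 - A) * B q * A))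

/-- `η`-approximations of an invariant projection -/
def IsApprox (K : ℕ → ℕ) (A : ∀ m, Lvl K m) (η : ℕ → ℝ) : Prop :=
  (∀ m, 0 ≤ η m) ∧ Tendsto η atTop (𝓝 0) ∧ (∀ m, PosContr (A m)) ∧
  (∀ (m : ℕ) (l : Fin m) (k : Fin (K l + 1)), Commute (A m) (siteOp K l (kS K l k))) ∧
  (∀ (m : ℕ) (b : Lvl K m) (C : ℝ), Commute b (Tm K m) → 0 ≤ C →
    (∀ Y : Lvl K m, nsq (b * Y) ≤ C ^ 2 * nsq Y) → (∀ Y : Lvl K m, nsq (Y * b) ≤ C ^ 2 * nsq Y) →
      nsq ((1 - A m) * b * A m) ≤ (C * η m) ^ 2) ∧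
  (∀ (l : ℕ) (M : Matrix (Site K l) (Site K l) ℂ) (m j : ℕ) (hm : l < m) (hj : l < j), m ≤ j →
    nsq (A m * siteOp K (⟨l, hm⟩ : Fin m) M - siteOp K (⟨l, hm⟩ : Fin m) M * A m) ≤
      nsq (A j * siteOp K (⟨l, hj⟩ : Fin j) M - siteOp K (⟨l, hj⟩ : Fin j) M * A j))

/-- conclusion of the gauge bound -/
def GaugeBound (K : ℕ → ℕ) (A : ∀ m, Lvl K m) : Prop :=
  ∀ (m : ℕ) (l : Fin m),
    nsq (A m * siteOp K l (eS K l) - siteOp K l (eS K l) * A m) ≤ 4 / ((K l : ℝ) + 1)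

/-- the telescoping bound -/
def TelescopeSpec : Prop :=
  ∀ (K : ℕ → ℕ) (A : ∀ m, Lvl K m) (η : ℕ → ℝ), IsApprox K A η → GaugeBound K A

/-- the bias at every site is at most zero in the limit -/
def BiasVanishes (K : ℕ → ℕ) (A : ∀ m, Lvl K m) : Prop :=
  ∀ (l : ℕ) (ε : ℝ), 0 < ε → ∀ᶠ m in atTop, ∀ h : l < m, lvlBias K (⟨l, h⟩ : Fin m) (A m) ≤ ε

/-- the window estimate and the choice of `K` -/
def WindowSpec : Prop :=
  CompactSpec → ∃ K : ℕ → ℕ, ∀ (A : ∀ m, Lvl K m) (η : ℕ → ℝ),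
    IsApprox K A η → GaugeBound K A → BiasVanishes K A

/-- commutation with every site algebra -/
def SitesCommute (K : ℕ → ℕ) (A : ∀ m, Lvl K m) : Prop :=
  ∀ (l : ℕ) (M : Matrix (Site K l) (Site K l) ℂ) (m : ℕ) (h : l < m),
    A m * siteOp K (⟨l, h⟩ : Fin m) M = siteOp K (⟨l, h⟩ : Fin m) M * A m

/-- vanishing bias gives commutation -/
def SiteSpec : Prop :=
  ∀ (K : ℕ → ℕ) (A : ∀ m, Lvl K m) (η : ℕ → ℝ),
    IsApprox K A η → BiasVanishes K A → SitesCommute K A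

/-- what the Hilbert space bridge needs -/
def CoreSpec : Prop :=
  ∃ K : ℕ → ℕ, ∀ (A : ∀ m, Lvl K m) (η : ℕ → ℝ), IsApprox K A η → SitesCommute K A

theorem coreSpec_of (hc : CompactSpec) (ht : TelescopeSpec) (hw : WindowSpec) (hs : SiteSpec) :
    CoreSpec := by
  obtain ⟨K, hK⟩ := hw hc
  exact ⟨K, fun A η h => hs K A η h (hK A η h (ht K A η h))⟩

end

end Vale.Agent.P131
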