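import Vale.Agent.P131.Telescope

/-!
P131: the compactness form of the finite lemma.
-/

namespace Vale.Agent.P131

open Matrix Filter Topology
open scoped ComplexOrder

noncomputable section

namespace Cpt

variable {I : Type*} [Fintype I] [DecidableEq I]

theorem diag_mem {A : Matrix I I ℂ} (hA : PosContr A) (a : I) :
    0 ≤ (A a a).re ∧ (A a a).re ≤ 1 := by
  have h1 := (Complex.nonneg_iff.mp (hA.1.diag_nonneg (i := a))).1
  have h2 := (Complex.nonneg_iff.mp (hA.2.diag_nonneg (i := a))).1
  simp only [Matrix.sub_apply, Matrix.one_apply_eq, Complex.sub_re, Complex.one_re] at h2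
  exact ⟨h1, by linarith⟩

theorem entry_le {A : Matrix I I ℂ} (hA : PosContr A) (a b : I) :
    ‖A a b‖ ≤ Fintype.card I + 1 := by
  have hn : nsq A ≤ Tele.tau A := by
    rw [← Tele.tau_star_mul, hA.1.1.eq]
    have := Tele.tau_nonneg (Tele.posSemidef_sub_sq hA)
    rw [Tele.tau_sub] at this
    linarith
  have ht : Tele.tau A ≤ 1 := by
    simp only [Tele.tau, ntr, Complex.div_natCast_re, Matrix.trace, Matrix.diag, Complex.re_sum]
    refine div_le_one_of_le₀ ?_ (Nat.cast_nonneg _)
    exact (Finset.sum_le_sum fun c _ => (diag_mem hA c).2).trans_eq (by simp)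
  have hc : (0 : ℝ) < Fintype.card I := by
    exact_mod_cast Fintype.card_pos_iff.mpr ⟨a⟩
  have hs : ‖A a b‖ ^ 2 ≤ Fintype.card I := by
    have h1 : ‖A a b‖ ^ 2 ≤ ∑ c, ∑ d, ‖A c d‖ ^ 2 :=
      (Finset.single_le_sum (f := fun d => ‖A a d‖ ^ 2) (fun d _ => by positivity)
        (Finset.mem_univ b)).trans
        (Finset.single_le_sum (f := fun c => ∑ d, ‖A c d‖ ^ 2) (fun c _ => by positivity)
          (Finset.mem_univ a))
    have h2 := hn.trans ht
    rw [nsq, div_le_one hc] at h2
    linarith
  nlinarith [norm_nonneg (A a b)]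

theorem isCompact_posContr : IsCompact {A : Matrix I I ℂ | PosContr A} := by
  refine IsCompact.of_isClosed_subset (isCompact_univ_pi fun _ : I =>
    isCompact_univ_pi fun _ : I => isCompact_closedBall (0 : ℂ) (Fintype.card I + 1)) ?_ ?_
  · have hp : IsClosed {A : Matrix I I ℂ | A.PosSemidef} := by
      simp only [posSemidef_iff_dotProduct_mulVec, Matrix.IsHermitian, Set.ofPred_and,
        Set.ofPred_forall]
      refine (isClosed_eq continuous_id.matrix_conjTranspose continuous_id).inter
        (isClosed_iInter fun x => ?_)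
      simp only [Complex.nonneg_iff, Set.ofPred_and]
      have hc : Continuous fun A : Matrix I I ℂ => star x ⬝ᵥ (A *ᵥ x) :=
        continuous_const.dotProduct (continuous_id.matrix_mulVec continuous_const)
      exact (isClosed_le continuous_const (Complex.continuous_re.comp hc)).inter
        (isClosed_eq continuous_const (Complex.continuous_im.comp hc))
    exact hp.inter (hp.preimage (continuous_const.sub continuous_id))
  · intro A hA
    exact fun a _ b _ => mem_closedBall_zero_iff.mpr (entry_le hA a b)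

omit [DecidableEq I] in
theorem nsq_eq_zero {X : Matrix I I ℂ} (h : nsq X = 0) : X = 0 := by
  rcases isEmpty_or_nonempty I with hI | hI
  · ext a; exact hI.elim a
  rw [nsq, div_eq_zero_iff] at h
  have hc : (Fintype.card I : ℝ) ≠ 0 := by exact_mod_cast Fintype.card_ne_zero
  ext a b
  have h1 := (Finset.sum_eq_zero_iff_of_nonneg fun c _ => Finset.sum_nonneg fun d _ => by positivity).mp
    (h.resolve_right hc) a (Finset.mem_univ a)
  have h2 := (Finset.sum_eq_zero_iff_of_nonneg fun d _ => by positivity).mp h1 b (Finset.mem_univ b)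
  simpa using h2

omit [DecidableEq I] in
theorem continuous_nsq : Continuous (nsq : Matrix I I ℂ → ℝ) := by
  refine (continuous_finsetSum _ fun a _ => continuous_finsetSum _ fun b _ => ?_).div_const _
  exact (continuous_id.matrix_elem a b).norm.pow 2

theorem bias_le_one {n : ℕ} (i : Fin n) {A : Matrix (Bits n) (Bits n) ℂ} (hA : PosContr A) :
    bias i A ≤ 1 := by
  refine div_le_one_of_le₀ ?_ (by positivity)
  calc ∑ a, (if a i then (1 : ℝ) else -1) * (A a a).re
      ≤ ∑ _a : Bits n, (1 : ℝ) := Finset.sum_le_sum fun a _ => by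
        have := diag_mem hA a
        split_ifs <;> linarith
    _ = 2 ^ n := by simp

end Cpt

open Cpt in
/-- quantitative finite lemma -/
theorem compactSpec (hF : FiniteSpec) : CompactSpec := by
  intro p w hw i
  set T := Tw w
  let S : Submodule ℂ (Matrix (Bits (2 * p + 1)) (Bits (2 * p + 1)) ℂ) :=
    { carrier := {b | Commute b T}
      add_mem' := fun h h' => h.add_left h'
      zero_mem' := Commute.zero_left T
      smul_mem' := fun c _ h => h.smul_left c }
  obtain ⟨f, hf⟩ := S.exists_isCompl
  let P := Submodule.projectionOnto S f hf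
  let B : Bits (2 * p + 1) × Bits (2 * p + 1) → Matrix (Bits (2 * p + 1)) (Bits (2 * p + 1)) ℂ :=
    fun q => P (Matrix.single q.1 q.2 1)
  let G := fun A : Matrix (Bits (2 * p + 1)) (Bits (2 * p + 1)) ℂ =>
    nsq (A - A * A) + ∑ q, nsq ((1 - A) * B q * A)
  have hG0 : ∀ A, 0 ≤ G A := fun A =>
    add_nonneg (nsq_nonneg _) (Finset.sum_nonneg fun q _ => nsq_nonneg _)
  set c : ℝ := (Nat.centralBinom p : ℝ) / 4 ^ p with hcdef
  have hp : (0 : ℝ) < 1 / (p + 1) := by positivity
  have hc : 0 ≤ c := by positivity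
  let U := {A : Matrix (Bits (2 * p + 1)) (Bits (2 * p + 1)) ℂ |
    PosContr A ∧ c + 1 / (p + 1) ≤ bias i A}
  have hpos : ∀ A ∈ U, 0 < G A := by
    rintro A ⟨hA, hAb⟩
    refine (hG0 A).lt_of_ne fun h => ?_
    obtain ⟨h1, h2⟩ := (add_eq_zero_iff_of_nonneg (nsq_nonneg _)
      (Finset.sum_nonneg fun q _ => nsq_nonneg _)).mp h.symm
    have hidem : A * A = A := (sub_eq_zero.mp (nsq_eq_zero h1)).symm
    have hq : ∀ q, (1 - A) * B q * A = 0 := fun q =>
      nsq_eq_zero ((Finset.sum_eq_zero_iff_of_nonneg fun q _ => nsq_nonneg _).mp h2 q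
        (Finset.mem_univ q))
    have hall : ∀ b, Commute b T → (1 - A) * b * A = 0 := by
      intro b hb
      have hb' : (P b : Matrix (Bits (2 * p + 1)) (Bits (2 * p + 1)) ℂ) = b :=
        congrArg Subtype.val (Submodule.projectionOnto_apply_left hf ⟨b, hb⟩)
      have hb2 : b = ∑ x, ∑ y, b x y • B (x, y) := by
        conv_lhs => rw [← hb', Matrix.matrix_eq_sum_single b]
        simp only [map_sum, Submodule.coe_sum, B]
        refine Finset.sum_congr rfl fun x _ => Finset.sum_congr rfl fun y _ => ?_
        rw [← Submodule.coe_smul, ← map_smul, Matrix.smul_single, smul_eq_mul, mul_one]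
      rw [hb2]
      simp [Finset.mul_sum, Finset.sum_mul, hq]
    have := hF p w hw i A hA.1.1 hidem hall
    linarith
  have hcG : Continuous G := by
    refine (continuous_nsq.comp (continuous_id.sub (continuous_id.matrix_mul continuous_id))).add
      (continuous_finsetSum _ fun q _ => continuous_nsq.comp
        (((continuous_const.sub continuous_id).matrix_mul continuous_const).matrix_mul
          continuous_id))
  have hcb : Continuous fun A : Matrix (Bits (2 * p + 1)) (Bits (2 * p + 1)) ℂ => bias i A :=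
    (continuous_finsetSum _ fun a _ => continuous_const.mul
      (Complex.continuous_re.comp (continuous_id.matrix_elem a a))).div_const _
  obtain ⟨δ, hδ, hδU⟩ : ∃ δ > 0, ∀ A ∈ U, δ ≤ G A := by
    rcases U.eq_empty_or_nonempty with hU | hU
    · exact ⟨1, one_pos, by simp [hU]⟩
    have hK : IsCompact U := isCompact_posContr.inter_right (isClosed_le continuous_const hcb)
    obtain ⟨A₀, hA₀, hmin⟩ := hK.exists_isMinOn hU hcG.continuousOn
    exact ⟨G A₀, hpos A₀ hA₀, fun A hA => hmin hA⟩
  refine ⟨1 / δ, B, by positivity, fun q => (P _).2, fun A hA => ?_⟩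
  have hLG : 0 ≤ 1 / δ * G A := mul_nonneg (by positivity) (hG0 A)
  change bias i A ≤ c + 1 / (p + 1) + 1 / δ * G A
  by_cases hb : c + 1 / (p + 1) ≤ bias i A
  · have h1 : 1 ≤ 1 / δ * G A := by
      rw [div_mul_eq_mul_div, one_mul, le_div_iff₀ hδ, one_mul]
      exact hδU A ⟨hA, hb⟩
    have := bias_le_one i hA
    linarith
  · linarith [not_le.mp hb]

end

end Vale.Agent.P131
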