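import Mathlib

/-!
P131: finite level definitions for the operator without hyperinvariant subspaces.
-/

namespace Vale.Agent.P131

open Matrix
open scoped ComplexOrder

noncomputable section

/-- configurations of `n` bits -/
abbrev Bits (n : ℕ) := Fin n → Bool

/-- the raising matrix `e10` on one bit -/
def e10 : Matrix Bool Bool ℂ := Matrix.single true false 1

/-- a one-bit matrix acting at bit `i` -/
def bitOp {n : ℕ} (i : Fin n) (M : Matrix Bool Bool ℂ) : Matrix (Bits n) (Bits n) ℂ :=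
  Matrix.of fun a b => if ∀ j, j ≠ i → a j = b j then M (a i) (b i) else 0

/-- the weighted raising operator -/
def Tw {n : ℕ} (w : Fin n → ℝ) : Matrix (Bits n) (Bits n) ℂ :=
  ∑ j, (w j : ℂ) • bitOp j e10

/-- trace of `A` against `e11 - e00` at bit `i`, normalised -/
def bias {n : ℕ} (i : Fin n) (A : Matrix (Bits n) (Bits n) ℂ) : ℝ :=
  (∑ a, (if a i then (1 : ℝ) else -1) * (A a a).re) / 2 ^ n

/-- finite lemma: projections invariant under the commutant of `Tw w` have small bias -/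
def FiniteSpec : Prop :=
  ∀ (p : ℕ) (w : Fin (2 * p + 1) → ℝ), (∀ j, 0 < w j) →
    ∀ (i : Fin (2 * p + 1)) (A : Matrix (Bits (2 * p + 1)) (Bits (2 * p + 1)) ℂ),
      A.IsHermitian → A * A = A →
      (∀ b, Commute b (Tw w) → (1 - A) * b * A = 0) →
      bias i A ≤ (Nat.centralBinom p : ℝ) / 4 ^ p

/-- one site: a bit and a counter -/
abbrev Site (K : ℕ → ℕ) (l : ℕ) := Bool × Fin (K l + 1)

/-- configurations of the first `m` sites -/
abbrev Idx (K : ℕ → ℕ) (m : ℕ) := (l : Fin m) → Site K l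

/-- matrices of level `m` -/
abbrev Lvl (K : ℕ → ℕ) (m : ℕ) := Matrix (Idx K m) (Idx K m) ℂ

/-- a matrix of site `l` acting in level `m` -/
def siteOp (K : ℕ → ℕ) {m : ℕ} (l : Fin m) (M : Matrix (Site K l) (Site K l) ℂ) : Lvl K m :=
  Matrix.of fun a b => if ∀ j, j ≠ l → a j = b j then M (a l) (b l) else 0

/-- `e10 ⊗ diag(2^-k)` -/
def xD (K : ℕ → ℕ) (l : ℕ) : Matrix (Site K l) (Site K l) ℂ :=
  Matrix.of fun s t => e10 s.1 t.1 * (if s.2 = t.2 then ((1 / 2 : ℂ) ^ (s.2 : ℕ)) else 0)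

/-- `e10 ⊗ 1` -/
def xS (K : ℕ → ℕ) (l : ℕ) : Matrix (Site K l) (Site K l) ℂ :=
  Matrix.of fun s t => e10 s.1 t.1 * (if s.2 = t.2 then 1 else 0)

/-- `e00 ⊗ 1` -/
def eS (K : ℕ → ℕ) (l : ℕ) : Matrix (Site K l) (Site K l) ℂ :=
  Matrix.diagonal fun s => if s.1 then 0 else 1

/-- `1 ⊗ e_kk` -/
def kS (K : ℕ → ℕ) (l : ℕ) (k : Fin (K l + 1)) : Matrix (Site K l) (Site K l) ℂ :=
  Matrix.diagonal fun s => if s.2 = k then 1 else 0

/-- `(e00 + e11/2) ⊗ (k ↦ k+1)` -/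
def bUp (K : ℕ → ℕ) (l : ℕ) : Matrix (Site K l) (Site K l) ℂ :=
  Matrix.of fun s t => if s.1 = t.1 ∧ (s.2 : ℕ) = (t.2 : ℕ) + 1 then (if s.1 then 1 / 2 else 1) else 0

/-- `(e00/2 + e11) ⊗ (k+1 ↦ k)` -/
def bDown (K : ℕ → ℕ) (l : ℕ) : Matrix (Site K l) (Site K l) ℂ :=
  Matrix.of fun s t => if s.1 = t.1 ∧ (t.2 : ℕ) = (s.2 : ℕ) + 1 then (if s.1 then 1 else 1 / 2) else 0

/-- the level `m` part of the operator -/
def Tm (K : ℕ → ℕ) (m : ℕ) : Lvl K m :=
  ∑ l : Fin m, ((1 / 2 : ℂ) ^ (l : ℕ)) • siteOp K l (xD K l)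

/-- normalised trace -/
def ntr {I : Type*} [Fintype I] (X : Matrix I I ℂ) : ℂ :=
  X.trace / (Fintype.card I : ℂ)

/-- squared normalised Hilbert–Schmidt norm -/
def nsq {I : Type*} [Fintype I] (X : Matrix I I ℂ) : ℝ :=
  (∑ a, ∑ b, ‖X a b‖ ^ 2) / (Fintype.card I : ℝ)

/-- bias of a level matrix at site `l` -/
def lvlBias (K : ℕ → ℕ) {m : ℕ} (l : Fin m) (A : Lvl K m) : ℝ :=
  (∑ a, (if (a l).1 then (1 : ℝ) else -1) * (A a a).re) / (Fintype.card (Idx K m) : ℝ)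

/-- positive contraction -/
def PosContr {I : Type*} [Fintype I] [DecidableEq I] (A : Matrix I I ℂ) : Prop :=
  A.PosSemidef ∧ (1 - A).PosSemidef

end

end Vale.Agent.P131
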