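import Vale.Agent.P131.Defs

/-!
P131: the finite lemma.
-/

namespace Vale.Agent.P131

open Matrix Module
open scoped ComplexOrder InnerProductSpace

noncomputable section

/-! ### the trace lemma -/

theorem trace_mul_eq_zero : ∀ (d : ℕ) (V : Type) [AddCommGroup V] [Module ℂ V]
    [FiniteDimensional ℂ V], finrank ℂ V ≤ d → ∀ (T X : V →ₗ[ℂ] V) (φ : V →ₗ[ℂ] ℂ) (w : V),
    IsNilpotent T → (∀ z, T (X z) - X (T z) = φ z • w) → LinearMap.trace ℂ V (T ∘ₗ X) = 0 := by
  intro d
  induction d with
  | zero =>
    intro V _ _ _ hd T X φ w _ _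
    have : Subsingleton V := finrank_zero_iff.mp (Nat.le_zero.mp hd)
    rw [Subsingleton.elim (T ∘ₗ X) 0, map_zero]
  | succ d ih =>
    have core : ∀ (V : Type) [AddCommGroup V] [Module ℂ V] [FiniteDimensional ℂ V],
        finrank ℂ V ≤ d + 1 → ∀ (T X : V →ₗ[ℂ] V) (φ : V →ₗ[ℂ] ℂ) (w : V), IsNilpotent T →
        (∀ z, T (X z) - X (T z) = φ z • w) →
        (∀ u ∈ LinearMap.range T, X u ∈ LinearMap.range T) →
        LinearMap.trace ℂ V (T ∘ₗ X) = 0 := by
      intro V _ _ _ hd T X φ w hT hC hX
      by_cases hsub : Subsingleton V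
      · rw [Subsingleton.elim (T ∘ₗ X) 0, map_zero]
      set U := LinearMap.range T with hU
      have hlt : finrank ℂ U < finrank ℂ V := by
        refine Submodule.finrank_lt ?_
        intro htop
        obtain ⟨k, hk⟩ := hT
        have hs : Function.Surjective (⇑(T ^ k)) := by
          rw [Module.End.coe_pow]
          exact (LinearMap.range_eq_top.mp htop).iterate k
        refine hsub ⟨fun x y => ?_⟩
        obtain ⟨a, rfl⟩ := hs x
        obtain ⟨b, rfl⟩ := hs y
        simp [hk]
      have hmem : ∀ z, (T ∘ₗ X) z ∈ U := fun z => LinearMap.mem_range_self T (X z)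
      have hTU : ∀ u ∈ U, T u ∈ U := fun u _ => LinearMap.mem_range_self T u
      rw [← LinearMap.trace_restrict_eq_of_forall_mem U (T ∘ₗ X) hmem]
      have hnil : IsNilpotent (T.restrict hTU) := Module.End.isNilpotent.restrict _ hT
      have heq : (T ∘ₗ X).restrict (fun x _ => hmem x) =
          (T.restrict hTU) ∘ₗ (X.restrict hX) := by
        ext u; rfl
      rw [heq]
      by_cases hw : w ∈ U
      · refine ih U (by omega) _ _ (φ ∘ₗ U.subtype) ⟨w, hw⟩ hnil fun z => ?_
        ext
        exact hC z
      · refine ih U (by omega) _ _ 0 0 hnil fun z => ?_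
        have h0 : φ (z : V) = 0 := by
          by_contra hne
          refine hw ?_
          have h1 : φ (z : V) • w ∈ U := by
            rw [← hC]
            exact U.sub_mem (hTU _ (hX _ z.2)) (hX _ (hTU _ z.2))
          simpa [smul_smul, inv_mul_cancel₀ hne] using U.smul_mem (φ (z : V))⁻¹ h1
        ext
        simpa [h0] using hC z
    intro V _ _ _ hd T X φ w hT hC
    by_cases hk : ∀ v, T v = 0 → φ v = 0
    · have hker : ∀ v ∈ LinearMap.ker T, X v ∈ LinearMap.ker T := by
        intro v hv
        rw [LinearMap.mem_ker] at hv ⊢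
        have := hC v
        rw [hv, map_zero, sub_zero, hk v hv, zero_smul] at this
        exact this
      have key := core (Module.Dual ℂ V) (by rw [Subspace.dual_finrank_eq]; exact hd)
        T.dualMap X.dualMap (-(Module.Dual.eval ℂ V w)) φ ?_ ?_ ?_
      · have e : LinearMap.trace ℂ (Module.Dual ℂ V) (T.dualMap ∘ₗ X.dualMap) =
            LinearMap.trace ℂ V (X ∘ₗ T) := by
          rw [← LinearMap.trace_transpose' (X ∘ₗ T)]
          rfl
        rw [LinearMap.trace_comp_comm', ← e]
        exact key
      · obtain ⟨k, hk0⟩ := hT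
        refine ⟨k, ?_⟩
        have hpow : ∀ j, T.dualMap ^ j = (T ^ j).dualMap := by
          intro j
          induction j with
          | zero => ext; simp
          | succ j hj =>
            rw [pow_succ, hj, pow_succ', Module.End.mul_eq_comp, Module.End.mul_eq_comp,
              LinearMap.dualMap_comp_dualMap]
        rw [hpow, hk0]; ext; simp
      · intro ψ
        ext z
        have h := congrArg ψ (hC z)
        simp only [map_sub, map_smul, smul_eq_mul] at h
        simp only [LinearMap.sub_apply, LinearMap.dualMap_apply, LinearMap.smul_apply,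
          LinearMap.neg_apply, Module.Dual.eval_apply, smul_eq_mul]
        linear_combination -h
      · rw [LinearMap.range_dualMap_eq_dualAnnihilator_ker]
        intro u hu
        rw [Submodule.mem_dualAnnihilator] at hu ⊢
        intro v hv
        exact hu _ (hker v hv)
    · push Not at hk
      obtain ⟨v, hv, hφ⟩ := hk
      have hw : w ∈ LinearMap.range T := by
        refine ⟨(φ v)⁻¹ • X v, ?_⟩
        have h := hC v
        rw [hv, map_zero, sub_zero] at h
        rw [map_smul, h, smul_smul, inv_mul_cancel₀ hφ, one_smul]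
      refine core V hd T X φ w hT hC ?_
      rintro u ⟨z, rfl⟩
      have h := hC z
      rw [sub_eq_iff_eq_add] at h
      have : X (T z) = T (X z) - φ z • w := by rw [h]; abel
      rw [this]
      exact Submodule.sub_mem _ (LinearMap.mem_range_self _ _) (Submodule.smul_mem _ _ hw)

/-! ### bit calculus -/

variable {n : ℕ}

/-- number of raised bits -/
def cnt (a : Bits n) : ℕ := (Finset.univ.filter fun j => a j = true).card

theorem cnt_update (a : Bits n) {j : Fin n} (hj : a j = true) :
    cnt (Function.update a j false) + 1 = cnt a := by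
  have h : (Finset.univ.filter fun k => Function.update a j false k = true) =
      (Finset.univ.filter fun k => a k = true).erase j := by
    ext k
    by_cases hk : k = j <;> simp [hk]
  unfold cnt
  rw [h, Finset.card_erase_add_one (by simp [hj])]

theorem bitOp_mulVec (j : Fin n) (M : Matrix Bool Bool ℂ) (v : Bits n → ℂ) (a : Bits n) :
    (bitOp j M *ᵥ v) a = ∑ x : Bool, M (a j) x * v (Function.update a j x) := by
  show ∑ b, bitOp j M a b * v b = _
  rw [← Finset.sum_subset (Finset.subset_univ (Finset.univ.image fun x => Function.update a j x))]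
  · rw [Finset.sum_image fun x _ y _ h => by simpa using congrFun h j]
    refine Finset.sum_congr rfl fun x _ => ?_
    have : ∀ k, k ≠ j → a k = Function.update a j x k := fun k hk =>
      (Function.update_of_ne hk _ _).symm
    simp only [bitOp, Matrix.of_apply, if_pos this, Function.update_self]
  · intro b _ hb
    have : ¬ ∀ k, k ≠ j → a k = b k := fun h => hb (Finset.mem_image.mpr
      ⟨b j, Finset.mem_univ _, by
        ext k
        by_cases hk : k = j
        · subst hk; simp
        · rw [Function.update_of_ne hk, h k hk]⟩)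
    simp only [bitOp, Matrix.of_apply, if_neg this, zero_mul]

theorem xop_mulVec (j : Fin n) (v : Bits n → ℂ) (a : Bits n) :
    (bitOp j e10 *ᵥ v) a = if a j then v (Function.update a j false) else 0 := by
  rw [bitOp_mulVec]
  cases h : a j <;> simp [e10]

theorem Tw_mulVec (w : Fin n → ℝ) (v : Bits n → ℂ) (a : Bits n) :
    (Tw w *ᵥ v) a = ∑ j, if a j then (w j : ℂ) * v (Function.update a j false) else 0 := by
  simp only [Tw, Matrix.sum_mulVec, Finset.sum_apply, Matrix.smul_mulVec, Pi.smul_apply,
    xop_mulVec, smul_eq_mul, mul_ite, mul_zero]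

theorem isNilpotent_Tw (w : Fin n → ℝ) : IsNilpotent (Matrix.toLin' (Tw w)) := by
  refine ⟨n + 1, ?_⟩
  have key : ∀ k, ∀ v : Bits n → ℂ, ∀ a, cnt a < k →
      ((Matrix.toLin' (Tw w) ^ k) v) a = 0 := by
    intro k
    induction k with
    | zero => intro v a h; simp at h
    | succ k ih =>
      intro v a h
      rw [pow_succ', Module.End.mul_apply, Matrix.toLin'_apply, Tw_mulVec]
      refine Finset.sum_eq_zero fun j _ => ?_
      split_ifs with hj
      · rw [ih v _ (by have := cnt_update a hj; omega), mul_zero]
      · rfl
  refine LinearMap.ext fun v => funext fun a => key _ v a ?_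
  have : cnt a ≤ n := by
    unfold cnt
    exact (Finset.card_filter_le _ _).trans (by simp)
  omega

/-- the number operator -/
def numOp (n : ℕ) : Matrix (Bits n) (Bits n) ℂ := Matrix.diagonal fun a => (cnt a : ℂ)

theorem numOp_mulVec (v : Bits n → ℂ) (a : Bits n) : (numOp n *ᵥ v) a = (cnt a : ℂ) * v a := by
  simp [numOp, Matrix.mulVec_diagonal]

theorem numOp_comm (w : Fin n → ℝ) : numOp n * Tw w - Tw w * numOp n = Tw w := by
  apply Matrix.toLin'.injective
  refine LinearMap.ext fun v => funext fun a => ?_
  simp only [map_sub, LinearMap.sub_apply, Matrix.toLin'_apply, ← Matrix.mulVec_mulVec,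
    Pi.sub_apply, numOp_mulVec, Tw_mulVec, Finset.mul_sum, ← Finset.sum_sub_distrib]
  refine Finset.sum_congr rfl fun j _ => ?_
  split_ifs with hj
  · rw [← cnt_update a hj]
    push_cast
    ring
  · ring

/-! ### invariance under the number operator -/

theorem trace_numOp_eq_zero (w : Fin n → ℝ) (A : Matrix (Bits n) (Bits n) ℂ)
    (hA : ∀ b, Commute b (Tw w) → (1 - A) * b * A = 0) : (1 - A) * numOp n * A = 0 := by
  ext u v
  set S : Matrix (Bits n) (Bits n) ℂ := A * Matrix.single v u 1 * (1 - A) with hS
  let ad : Matrix (Bits n) (Bits n) ℂ →ₗ[ℂ] Matrix (Bits n) (Bits n) ℂ :=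
    LinearMap.mulLeft ℂ (Tw w) - LinearMap.mulRight ℂ (Tw w)
  have htr : ∀ b : Matrix (Bits n) (Bits n) ℂ, (b * S).trace = ((1 - A) * b * A) u v := by
    intro b
    rw [hS, ← Matrix.mul_assoc, Matrix.trace_mul_comm, ← Matrix.mul_assoc, ← Matrix.mul_assoc,
      Matrix.trace_mul_single]
    simp
  have hmem : S ∈ LinearMap.range ad := by
    by_contra hS'
    obtain ⟨f, hf, hf0⟩ := Submodule.exists_dual_map_eq_bot_of_notMem hS' inferInstance
    let b : Matrix (Bits n) (Bits n) ℂ := Matrix.of fun i j => f (Matrix.single j i 1)
    have hb : ∀ Y, f Y = (b * Y).trace := by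
      intro Y
      conv_lhs => rw [Matrix.matrix_eq_sum_single Y]
      simp only [map_sum, Matrix.trace, Matrix.diag, Matrix.mul_apply]
      rw [Finset.sum_comm]
      refine Finset.sum_congr rfl fun j _ => Finset.sum_congr rfl fun i _ => ?_
      rw [show Matrix.single i j (Y i j) = Y i j • Matrix.single i j (1 : ℂ) by
        simp [Matrix.smul_single]]
      simp only [map_smul, smul_eq_mul, b, Matrix.of_apply]
      ring
    have hcomm : Commute b (Tw w) := by
      refine sub_eq_zero.mp ?_
      ext i j
      have h0 : f (ad (Matrix.single j i 1)) = 0 :=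
        (Submodule.mem_bot ℂ).mp (hf0 ▸ Submodule.mem_map_of_mem (LinearMap.mem_range_self _ _))
      rw [hb] at h0
      simp only [ad, LinearMap.sub_apply, LinearMap.mulLeft_apply, LinearMap.mulRight_apply,
        Matrix.mul_sub, Matrix.trace_sub] at h0
      rw [← Matrix.mul_assoc, Matrix.trace_mul_single, ← Matrix.mul_assoc, Matrix.trace_mul_comm,
        ← Matrix.mul_assoc, Matrix.trace_mul_single] at h0
      simpa using h0
    exact hf (by rw [hb, htr, hA b hcomm]; rfl)
  obtain ⟨X, hX⟩ := hmem
  have hX' : Tw w * X - X * Tw w = S := by simpa [ad] using hX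
  have hrank : S = Matrix.vecMulVec (fun a => A a v) (fun c => (1 - A) u c) := by
    ext a c
    rw [hS, Matrix.vecMulVec_apply, Matrix.mul_apply]
    rw [Finset.sum_eq_single u]
    · rw [Matrix.mul_single_apply_same]
      simp
    · intro k _ hk
      rw [Matrix.mul_single_apply_of_ne (hbj := hk), zero_mul]
    · simp
  have hzero : (Tw w * X).trace = 0 := by
    rw [← Matrix.trace_toLin'_eq, Matrix.toLin'_mul]
    refine trace_mul_eq_zero _ (Bits n → ℂ) le_rfl _ _
      ((dotProductBilin ℂ ℂ) fun c => (1 - A) u c) (fun a => A a v) (isNilpotent_Tw w) fun z => ?_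
    simp only [Matrix.toLin'_apply, Matrix.mulVec_mulVec]
    rw [← Matrix.sub_mulVec, hX', hrank, Matrix.vecMulVec_mulVec]
    ext a
    simp [dotProductBilin, mul_comm]
  rw [← htr, ← hX', Matrix.mul_sub, Matrix.trace_sub, ← Matrix.mul_assoc, ← Matrix.mul_assoc,
    Matrix.trace_mul_cycle (numOp n) X, ← Matrix.trace_sub, ← Matrix.sub_mul, numOp_comm, hzero]
  rfl

/-! ### kernel of the raising operator -/

theorem card_middle (p : ℕ) :
    Fintype.card {a : Bits (2 * p) // cnt a = p} = Nat.centralBinom p := by
  rw [Fintype.card_subtype, Nat.centralBinom_eq_two_mul_choose]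
  have : Finset.card (Finset.powersetCard p (Finset.univ : Finset (Fin (2 * p)))) =
      (2 * p).choose p := by simp
  rw [← this]
  refine Finset.card_nbij' (fun a => Finset.univ.filter fun j => a j = true)
    (fun s j => decide (j ∈ s)) ?_ ?_ ?_ ?_
  · intro a ha
    exact Finset.mem_coe.mpr (Finset.mem_powersetCard.mpr
      ⟨Finset.subset_univ _, (Finset.mem_filter.mp (Finset.mem_coe.mp ha)).2⟩)
  · intro s hs
    have hss : (Finset.univ.filter fun j => decide (j ∈ s) = true) = s := by ext; simp
    simp only [Finset.mem_coe, Finset.mem_powersetCard] at hs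
    refine Finset.mem_coe.mpr (Finset.mem_filter.mpr ⟨Finset.mem_univ _, ?_⟩)
    show Finset.card _ = p
    rw [hss]; exact hs.2
  · intro a _
    ext j
    simp
  · intro s _
    ext j
    simp

theorem transpose_Tw_one (v : Bits n → ℂ) (a : Bits n) :
    ((Tw (fun _ : Fin n => (1 : ℝ)))ᵀ *ᵥ v) a =
      ∑ j, if a j then 0 else v (Function.update a j true) := by
  have h : ∀ j : Fin n, (bitOp j e10)ᵀ = bitOp j e10ᵀ := by
    intro j
    ext x y
    simp only [Matrix.transpose_apply, bitOp, Matrix.of_apply]
    exact if_congr ⟨fun h k hk => (h k hk).symm, fun h k hk => (h k hk).symm⟩ rfl rfl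
  simp only [Tw, Complex.ofReal_one, one_smul, Matrix.transpose_sum, h, Matrix.sum_mulVec,
    Finset.sum_apply, bitOp_mulVec]
  refine Finset.sum_congr rfl fun j _ => ?_
  cases hj : a j <;> simp [e10]

theorem lower_raise (v : Bits n → ℂ) (a : Bits n) :
    ((Tw (fun _ : Fin n => (1 : ℝ)))ᵀ *ᵥ (Tw (fun _ => 1) *ᵥ v)) a -
      (Tw (fun _ => 1) *ᵥ ((Tw (fun _ : Fin n => (1 : ℝ)))ᵀ *ᵥ v)) a =
      ((n : ℂ) - 2 * cnt a) * v a := by
  simp only [Tw_mulVec, transpose_Tw_one, Complex.ofReal_one, one_mul]
  have e1 : ∀ j, (if a j then (0 : ℂ) else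
      ∑ k, if Function.update a j true k then
        v (Function.update (Function.update a j true) k false) else 0) =
      ∑ k, if a j then 0 else if k = j then v a else
        if a k then v (Function.update (Function.update a j true) k false) else 0 := by
    intro j
    cases hj : a j
    · simp only [Bool.false_eq_true, if_false]
      refine Finset.sum_congr rfl fun k _ => ?_
      rcases eq_or_ne k j with rfl | hk
      · rw [Function.update_self, Function.update_idem, Function.update_eq_self_iff.mpr hj.symm]
        simp
      · rw [Function.update_of_ne hk, if_neg hk]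
    · simp
  have e2 : ∀ k, (if a k then
      ∑ j, if Function.update a k false j then (0 : ℂ) else
        v (Function.update (Function.update a k false) j true) else 0) =
      ∑ j, if a k then (if k = j then v a else
        if a j then 0 else v (Function.update (Function.update a j true) k false)) else 0 := by
    intro k
    cases hk : a k
    · simp
    · simp only [if_true]
      refine Finset.sum_congr rfl fun j _ => ?_
      rcases eq_or_ne k j with rfl | hj
      · rw [Function.update_self, Function.update_idem, Function.update_eq_self_iff.mpr hk.symm]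
        simp
      · rw [Function.update_of_ne hj.symm, if_neg hj, Function.update_comm hj]
  simp only [e1, e2]
  rw [Finset.sum_comm (f := fun k j => if a k then (if k = j then v a else
    if a j then 0 else v (Function.update (Function.update a j true) k false)) else 0),
    ← Finset.sum_sub_distrib]
  have e3 : ∀ j : Fin n, ((∑ k, if a j then 0 else if k = j then v a else
        if a k then v (Function.update (Function.update a j true) k false) else 0) -
      ∑ k, if a k then (if k = j then v a else
        if a j then 0 else v (Function.update (Function.update a j true) k false)) else 0) =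
      (1 - 2 * if a j then (1 : ℂ) else 0) * v a := by
    intro j
    rw [← Finset.sum_sub_distrib, Finset.sum_eq_single j]
    · cases a j <;> simp <;> ring
    · intro k _ hk
      cases a j <;> cases a k <;> simp [hk]
    · simp
  simp only [e3, ← Finset.sum_mul, Finset.sum_sub_distrib, ← Finset.mul_sum]
  congr 1
  simp [cnt, Finset.sum_boole]

theorem norm_raise (v : Bits n → ℂ) :
    (∑ a, ‖(Tw (fun _ : Fin n => (1 : ℝ)) *ᵥ v) a‖ ^ 2) -
      ∑ a, ‖((Tw (fun _ : Fin n => (1 : ℝ)))ᵀ *ᵥ v) a‖ ^ 2 =
      ∑ a, ((n : ℝ) - 2 * cnt a) * ‖v a‖ ^ 2 := by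
  set T := Tw (fun _ : Fin n => (1 : ℝ)) with hT
  have hreal : Tᴴ = Tᵀ := by
    ext x y
    simp only [Matrix.conjTranspose_apply, Matrix.transpose_apply, hT, Tw, Matrix.sum_apply,
      Complex.ofReal_one, one_smul, star_sum, bitOp, Matrix.of_apply, e10, Matrix.single_apply]
    exact Finset.sum_congr rfl fun j _ => by split_ifs <;> simp
  have key : ∀ M : Matrix (Bits n) (Bits n) ℂ,
      ((∑ a, ‖(M *ᵥ v) a‖ ^ 2 : ℝ) : ℂ) = star v ⬝ᵥ (Mᴴ *ᵥ (M *ᵥ v)) := by
    intro M
    rw [Matrix.dotProduct_mulVec, Matrix.vecMul_conjTranspose, star_star, dotProduct,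
      Complex.ofReal_sum]
    refine Finset.sum_congr rfl fun a _ => ?_
    rw [Pi.star_apply, Complex.ofReal_pow, ← Complex.conj_mul']
    rfl
  apply Complex.ofReal_injective
  rw [Complex.ofReal_sub, key, key, ← hreal, Matrix.conjTranspose_conjTranspose, hreal,
    ← dotProduct_sub, dotProduct, Complex.ofReal_sum]
  refine Finset.sum_congr rfl fun a _ => ?_
  rw [Pi.star_apply, Pi.sub_apply, hT, lower_raise]
  push_cast
  rw [← Complex.conj_mul']
  simp only [RCLike.star_def]
  ring

theorem finrank_ker_one (p : ℕ) :
    finrank ℂ (LinearMap.ker (Matrix.toLin' (Tw (fun _ : Fin (2 * p) => (1 : ℝ))))) ≤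
      Nat.centralBinom p := by
  set N := Matrix.toLin' (Tw (fun _ : Fin (2 * p) => (1 : ℝ))) with hN
  set L := (Tw (fun _ : Fin (2 * p) => (1 : ℝ)))ᵀ with hL
  let Φ : ({a : Bits (2 * p) // cnt a ≠ p} → ℂ) →ₗ[ℂ] (Bits (2 * p) → ℂ) :=
    { toFun := fun u a => if h : cnt a ≠ p then u ⟨a, h⟩ else 0
      map_add' := fun u u' => by
        ext a; by_cases h : cnt a = p <;> simp [h]
      map_smul' := fun c u => by
        ext a; by_cases h : cnt a = p <;> simp [h] }
  let lo : (Bits (2 * p) → ℂ) →ₗ[ℂ] (Bits (2 * p) → ℂ) :=
    { toFun := fun u a => if cnt a < p then u a else 0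
      map_add' := fun u u' => by ext a; by_cases h : cnt a < p <;> simp [h]
      map_smul' := fun c u => by ext a; by_cases h : cnt a < p <;> simp [h] }
  let hi : (Bits (2 * p) → ℂ) →ₗ[ℂ] (Bits (2 * p) → ℂ) :=
    { toFun := fun u a => if p < cnt a then u a else 0
      map_add' := fun u u' => by ext a; by_cases h : p < cnt a <;> simp [h]
      map_smul' := fun c u => by ext a; by_cases h : p < cnt a <;> simp [h] }
  let Ψ := N ∘ₗ (lo + Matrix.toLin' L ∘ₗ hi) ∘ₗ Φ
  have hinj : Function.Injective Ψ := by
    refine LinearMap.ker_eq_bot.mp (LinearMap.ker_eq_bot'.mpr fun u hu => ?_)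
    set f := lo (Φ u) with hf
    set g := hi (Φ u) with hg
    have hu' : (N f) + N (L *ᵥ g) = 0 := by
      simpa [Ψ, hf, hg, map_add] using hu
    have hflo : ∀ a, p < cnt a → (N f) a = 0 := by
      intro a ha
      rw [hN, Matrix.toLin'_apply, Tw_mulVec]
      refine Finset.sum_eq_zero fun j _ => ?_
      split_ifs with hj
      · have := cnt_update a hj
        simp [f, lo, show ¬ cnt (Function.update a j false) < p by omega]
      · rfl
    have hghi : ∀ a, cnt a ≤ p → (N (L *ᵥ g)) a = 0 := by
      intro a ha
      rw [hN, Matrix.toLin'_apply, Tw_mulVec]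
      refine Finset.sum_eq_zero fun j _ => ?_
      split_ifs with hj
      · rw [hL, transpose_Tw_one]
        refine mul_eq_zero_of_right _ (Finset.sum_eq_zero fun k _ => ?_)
        split_ifs with hk
        · rfl
        · have h1 := cnt_update a hj
          have h2 := cnt_update (Function.update (Function.update a j false) k true) (j := k)
            (by simp)
          rw [Function.update_idem, Function.update_eq_self_iff.mpr
            (by simpa using hk)] at h2
          simp [g, hi, show ¬ p < cnt (Function.update (Function.update a j false) k true) by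
            omega]
      · rfl
    have hNf : N f = 0 := funext fun a => by
      have := congrFun hu' a
      rcases lt_or_ge p (cnt a) with h | h
      · exact hflo a h
      · simpa [hghi a h] using this
    have hNg : N (L *ᵥ g) = 0 := by simpa [hNf] using hu'
    have hf0 : ∀ a, f a = 0 := by
      intro a
      by_contra hne
      have ha : cnt a < p := by
        by_contra h
        exact hne (by simp [f, lo, h])
      have h := norm_raise f
      rw [show Tw (fun _ : Fin (2 * p) => (1 : ℝ)) *ᵥ f = N f from rfl, hNf] at h
      simp only [Pi.zero_apply, norm_zero, ne_eq, OfNat.ofNat_ne_zero, not_false_eq_true,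
        zero_pow, Finset.sum_const_zero, zero_sub] at h
      have hpos : 0 < ∑ b, (((2 * p : ℕ) : ℝ) - 2 * cnt b) * ‖f b‖ ^ 2 := by
        refine Finset.sum_pos' (fun b _ => ?_) ⟨a, Finset.mem_univ _, ?_⟩
        · by_cases hb : cnt b < p
          · have : (cnt b : ℝ) ≤ p := by exact_mod_cast hb.le
            push_cast
            exact mul_nonneg (by linarith) (by positivity)
          · simp [f, lo, hb]
        · have : (cnt a : ℝ) < p := by exact_mod_cast ha
          have h2 : 0 < ‖f a‖ := norm_pos_iff.mpr hne
          push_cast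
          nlinarith [pow_pos h2 2]
      have : 0 ≤ ∑ b, ‖((Tw (fun _ : Fin (2 * p) => (1 : ℝ)))ᵀ *ᵥ f) b‖ ^ 2 := by positivity
      linarith
    have hLg : L *ᵥ g = 0 := by
      have h := congrArg (fun z => star g ⬝ᵥ z) hNg
      simp only [dotProduct_zero] at h
      have hreal : (Tw (fun _ : Fin (2 * p) => (1 : ℝ))) = Lᴴ := by
        ext x y
        simp only [hL, Matrix.conjTranspose_apply, Matrix.transpose_apply, Tw, Matrix.sum_apply,
          Complex.ofReal_one, one_smul, star_sum, bitOp, Matrix.of_apply, e10, Matrix.single_apply]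
        exact Finset.sum_congr rfl fun j _ => by split_ifs <;> simp
      rw [hN, Matrix.toLin'_apply, hreal, Matrix.dotProduct_mulVec, Matrix.vecMul_conjTranspose,
        star_star] at h
      exact dotProduct_star_self_eq_zero.mp h
    have hg0 : ∀ a, g a = 0 := by
      intro a
      by_contra hne
      have ha : p < cnt a := by
        by_contra h
        exact hne (by simp [g, hi, h])
      have h := norm_raise g
      rw [← hL, hLg] at h
      simp only [Pi.zero_apply, norm_zero, ne_eq, OfNat.ofNat_ne_zero, not_false_eq_true,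
        zero_pow, Finset.sum_const_zero, sub_zero] at h
      have hneg : ∑ b, (((2 * p : ℕ) : ℝ) - 2 * cnt b) * ‖g b‖ ^ 2 < 0 := by
        refine Finset.sum_neg' (fun b _ => ?_) ⟨a, Finset.mem_univ _, ?_⟩
        · by_cases hb : p < cnt b
          · have : (p : ℝ) ≤ cnt b := by exact_mod_cast hb.le
            push_cast
            exact mul_nonpos_of_nonpos_of_nonneg (by linarith) (by positivity)
          · simp [g, hi, hb]
        · have : (p : ℝ) < cnt a := by exact_mod_cast ha
          have h2 : 0 < ‖g a‖ := norm_pos_iff.mpr hne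
          push_cast
          nlinarith [pow_pos h2 2]
      have : 0 ≤ ∑ b, ‖(Tw (fun _ : Fin (2 * p) => (1 : ℝ)) *ᵥ g) b‖ ^ 2 := by positivity
      linarith
    funext ⟨a, ha⟩
    rcases lt_or_gt_of_ne ha with h | h
    · simpa [f, lo, Φ, h, ha] using hf0 a
    · simpa [g, hi, Φ, h, ha] using hg0 a
  have h1 := LinearMap.finrank_le_finrank_of_injective (f := Ψ.codRestrict (LinearMap.range N)
    fun u => LinearMap.mem_range_self N _) fun x y h => hinj (congrArg Subtype.val h)
  have h2 := LinearMap.finrank_range_add_finrank_ker N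
  rw [Module.finrank_fintype_fun_eq_card] at h1 h2
  have h3 : Fintype.card {a : Bits (2 * p) // cnt a ≠ p} + Nat.centralBinom p =
      Fintype.card (Bits (2 * p)) := by
    rw [← card_middle, Fintype.card_subtype_compl]
    have := Fintype.card_subtype_le fun a : Bits (2 * p) => cnt a = p
    omega
  omega

theorem finrank_ker_le (p : ℕ) (w : Fin (2 * p) → ℝ) (hw : ∀ j, 0 < w j) :
    finrank ℂ (LinearMap.ker (Matrix.toLin' (Tw w))) ≤ Nat.centralBinom p := by
  let s : Bits (2 * p) → ℂ := fun a => ∏ j, if a j then (w j : ℂ) else 1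
  have hs : ∀ a, s a ≠ 0 := fun a => Finset.prod_ne_zero_iff.mpr fun j _ => by
    split_ifs
    · exact_mod_cast (hw j).ne'
    · exact one_ne_zero
  refine le_trans ?_ (finrank_ker_one p)
  refine LinearMap.finrank_le_finrank_of_injective
    (f := ((Matrix.toLin' (Matrix.diagonal fun a => (s a)⁻¹)).domRestrict
      (LinearMap.ker (Matrix.toLin' (Tw w)))).codRestrict _ fun v => ?_) ?_
  · rw [LinearMap.mem_ker]
    ext a
    have hv : (Tw w *ᵥ (v : Bits (2 * p) → ℂ)) a = 0 := congrFun (LinearMap.mem_ker.mp v.2) a
    simp only [LinearMap.domRestrict_apply, Matrix.toLin'_apply, Tw_mulVec, Matrix.mulVec_diagonal,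
      Complex.ofReal_one, one_mul, Pi.zero_apply] at hv ⊢
    have e : ∀ j, a j = true → s a = (w j : ℂ) * s (Function.update a j false) := by
      intro j hj
      simp only [s]
      rw [← Finset.mul_prod_erase _ _ (Finset.mem_univ j),
        ← Finset.mul_prod_erase _ (fun k => if Function.update a j false k then _ else _)
          (Finset.mem_univ j)]
      simp only [hj, Function.update_self, if_true, Bool.false_eq_true, if_false, one_mul]
      congr 1
      refine Finset.prod_congr rfl fun k hk => ?_
      rw [Function.update_of_ne (Finset.ne_of_mem_erase hk)]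
    refine Eq.trans ?_ ((congrArg (fun z => (s a)⁻¹ * z) hv).trans (mul_zero _))
    rw [Finset.mul_sum]
    refine Finset.sum_congr rfl fun j _ => ?_
    split_ifs with hj
    · rw [e j hj]
      have := hs (Function.update a j false)
      have hwj : (w j : ℂ) ≠ 0 := by exact_mod_cast (hw j).ne'
      field_simp
    · simp
  · intro x y h
    ext a
    have := congrFun (congrArg Subtype.val h) a
    simpa [Matrix.mulVec_diagonal, hs a] using this

/-! ### the finite lemma -/

/-- vectors supported where bit `i` is `b` -/
def slice (i : Fin n) (b : Bool) : Submodule ℂ (Bits n → ℂ) where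
  carrier := {v | ∀ a, a i ≠ b → v a = 0}
  add_mem' := fun hu hv a ha => by simp [hu a ha, hv a ha]
  zero_mem' := fun _ _ => rfl
  smul_mem' := fun c v hv a ha => by simp [hv a ha]

/-- exchange of bits `i` and `j` -/
def swapBits (i j : Fin n) (a : Bits n) : Bits n := fun k => a (Equiv.swap i j k)

/-- the coefficient of the exchange operator -/
def swapWeight (w : Fin n → ℝ) (i j : Fin n) (a : Bits n) : ℂ :=
  if a i then (if a j then (w i : ℂ) * w j else (w j : ℂ) ^ 2)
  else (if a j then (w i : ℂ) ^ 2 else (w i : ℂ) * w j)

/-- an element of the commutant exchanging two bits -/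
def exch (w : Fin n → ℝ) (i j : Fin n) : Matrix (Bits n) (Bits n) ℂ :=
  Matrix.of fun a b => if b = swapBits i j a then swapWeight w i j b else 0

theorem exch_mulVec (w : Fin n → ℝ) (i j : Fin n) (v : Bits n → ℂ) (a : Bits n) :
    (exch w i j *ᵥ v) a = swapWeight w i j (swapBits i j a) * v (swapBits i j a) := by
  simp [exch, Matrix.mulVec, dotProduct]

theorem exch_commute (w : Fin n → ℝ) {i j : Fin n} (hij : i ≠ j) :
    Commute (exch w i j) (Tw w) := by
  apply Matrix.toLin'.injective
  refine LinearMap.ext fun v => funext fun a => ?_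
  simp only [Matrix.toLin'_apply, ← Matrix.mulVec_mulVec, exch_mulVec, Tw_mulVec, Finset.mul_sum]
  conv_lhs => rw [← Equiv.sum_comp (Equiv.swap i j)]
  refine Finset.sum_congr rfl fun k _ => ?_
  have h1 : swapBits i j a (Equiv.swap i j k) = a k := by simp [swapBits]
  have h2 : Function.update (swapBits i j a) (Equiv.swap i j k) false =
      swapBits i j (Function.update a k false) := by
    funext l
    simp only [swapBits, Function.update_apply]
    by_cases hl : l = Equiv.swap i j k
    · subst hl; simp
    · rw [if_neg hl, if_neg]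
      intro h
      exact hl (by rw [← h]; simp)
  rw [h1, h2, mul_ite, mul_zero]
  by_cases hk : a k
  · rw [if_pos hk, if_pos hk, ← mul_assoc, ← mul_assoc]
    congr 1
    have hji : ¬ j = i := fun h => hij h.symm
    rcases eq_or_ne k i with rfl | hki
    · cases hj : a j <;>
        simp [swapWeight, swapBits, hji, hk, hj] <;> ring
    rcases eq_or_ne k j with rfl | hkj
    · cases hi : a i <;>
        simp [swapWeight, swapBits, hij, hk, hi] <;> ring
    · rw [Equiv.swap_apply_of_ne_of_ne hki hkj]
      simp [swapWeight, swapBits, Function.update_of_ne hki.symm, Function.update_of_ne hkj.symm]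
      ring
  · rw [if_neg hk, if_neg hk]

theorem sum_re_slice_ge (i : Fin n) (A : Matrix (Bits n) (Bits n) ℂ) (hA : A.IsHermitian)
    (hA2 : A * A = A) :
    (finrank ℂ ↥(LinearMap.range (Matrix.toLin' A) ⊓ slice i false) : ℝ) ≤
      ∑ a, if a i then (0 : ℝ) else (A a a).re := by
  set W0 := LinearMap.range (Matrix.toLin' A) ⊓ slice i false with hW0
  set e := WithLp.linearEquiv 2 ℂ (Bits n → ℂ) with he
  set U : Submodule ℂ (EuclideanSpace ℂ (Bits n)) := W0.map e.symm.toLinearMap with hU
  have hdim : finrank ℂ U = finrank ℂ W0 := LinearEquiv.finrank_map_eq e.symm W0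
  set b := stdOrthonormalBasis ℂ U
  have hon : Orthonormal ℂ fun k => ((b k : U) : EuclideanSpace ℂ (Bits n)) :=
    b.orthonormal.comp_linearIsometry U.subtypeₗᵢ
  have hbW : ∀ k, e ((b k : U) : EuclideanSpace ℂ (Bits n)) ∈ W0 := by
    intro k
    obtain ⟨y, hy, hy'⟩ := Submodule.mem_map.mp (b k).2
    rw [← hy']
    simpa using hy
  let u : Bits n → EuclideanSpace ℂ (Bits n) := fun a => e.symm fun c => star (A a c)
  have hinner : ∀ a k, inner ℂ ((b k : U) : EuclideanSpace ℂ (Bits n)) (u a) =
      star ((b k : EuclideanSpace ℂ (Bits n)) a) := by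
    intro a k
    obtain ⟨z, hz⟩ := (hbW k).1
    have hfix : A *ᵥ (e ((b k : U) : EuclideanSpace ℂ (Bits n))) = e (b k : U) := by
      rw [← hz, Matrix.toLin'_apply, Matrix.mulVec_mulVec, hA2]
    rw [show ((b k : EuclideanSpace ℂ (Bits n)) a) = (A *ᵥ e ((b k : U))) a from
      (congrFun hfix a).symm]
    simp [PiLp.inner_apply, u, he, Matrix.mulVec, dotProduct]
  have hnorm : ∀ a, ‖u a‖ ^ 2 = (A a a).re := by
    intro a
    conv_rhs => rw [← hA2, Matrix.mul_apply, Complex.re_sum]
    rw [EuclideanSpace.norm_sq_eq]
    refine Finset.sum_congr rfl fun c _ => ?_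
    have hc : A c a = star (A a c) := (hA.apply c a).symm
    rw [hc]
    simp [u, he, Complex.mul_conj, Complex.sq_norm]
  calc (finrank ℂ W0 : ℝ) = ∑ k, ‖((b k : U) : EuclideanSpace ℂ (Bits n))‖ ^ 2 := by
        simp [hon.1, hdim]
    _ = ∑ a, ∑ k, ‖((b k : U) : EuclideanSpace ℂ (Bits n)) a‖ ^ 2 := by
        simp only [EuclideanSpace.norm_sq_eq]
        rw [Finset.sum_comm]
    _ ≤ ∑ a, if a i then (0 : ℝ) else (A a a).re := by
        refine Finset.sum_le_sum fun a _ => ?_
        split_ifs with ha
        · refine le_of_eq (Finset.sum_eq_zero fun k _ => ?_)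
          have h0 : e ((b k : U) : EuclideanSpace ℂ (Bits n)) a = 0 := (hbW k).2 a (by simp [ha])
          simp [he] at h0
          simp [h0]
        · rw [← hnorm]
          refine le_trans (le_of_eq ?_) (hon.sum_inner_products_le (x := u a) (s := Finset.univ))
          simp [hinner]
  exact le_rfl

theorem finiteSpec : FiniteSpec := by
  intro p w hw i A hA hA2 hinv
  set W := LinearMap.range (Matrix.toLin' A) with hW
  have hfix : ∀ v ∈ W, A *ᵥ v = v := by
    rintro _ ⟨z, rfl⟩
    rw [Matrix.toLin'_apply, Matrix.mulVec_mulVec, hA2]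
  have hpres : ∀ b : Matrix (Bits (2 * p + 1)) (Bits (2 * p + 1)) ℂ, (1 - A) * b * A = 0 → ∀ v ∈ W, b *ᵥ v ∈ W := by
    intro b hb v hv
    refine ⟨b *ᵥ v, ?_⟩
    rw [Matrix.toLin'_apply]
    have := congrFun (congrArg (fun M => M *ᵥ v) hb)
    simp only [← Matrix.mulVec_mulVec, hfix v hv, Matrix.sub_mulVec, Matrix.one_mulVec,
      Matrix.zero_mulVec] at this
    exact funext fun a => (sub_eq_zero.mp (this a)).symm
  have hcom : ∀ b, Commute b (Tw w) → ∀ v ∈ W, b *ᵥ v ∈ W := fun b hb => hpres b (hinv b hb)
  have hH : ∀ v ∈ W, numOp (2 * p + 1) *ᵥ v ∈ W := hpres _ (trace_numOp_eq_zero w A hinv)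
  set W1 := W ⊓ slice i true with hW1
  set W0 := W ⊓ slice i false with hW0
  -- the rank of `x_i` on `W`
  have hd : finrank ℂ W ≤ 2 * finrank ℂ W1 := by
    have hxc : Commute (bitOp i e10) (Tw w) := by
      apply Matrix.toLin'.injective
      refine LinearMap.ext fun v => funext fun a => ?_
      simp only [Matrix.toLin'_apply, ← Matrix.mulVec_mulVec, xop_mulVec, Tw_mulVec]
      by_cases hai : a i
      · rw [if_pos hai]
        refine Finset.sum_congr rfl fun k _ => ?_
        rcases eq_or_ne k i with rfl | hk
        · simp
        · simp [Function.update_of_ne hk, Function.update_of_ne hk.symm, hai,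
            Function.update_comm hk]
      · rw [if_neg hai]
        symm
        refine Finset.sum_eq_zero fun k _ => ?_
        rcases eq_or_ne k i with rfl | hk
        · simp [hai]
        · simp [Function.update_of_ne hk.symm, hai]
    set f := (Matrix.toLin' (bitOp i e10)).domRestrict W with hf
    have h1 := LinearMap.finrank_range_add_finrank_ker f
    have h2 : finrank ℂ (LinearMap.range f) ≤ finrank ℂ W1 := by
      refine Submodule.finrank_mono ?_
      rintro _ ⟨v, rfl⟩
      refine ⟨hcom _ hxc v v.2, fun a ha => ?_⟩
      simp [hf, xop_mulVec, ha]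
    have h3 : finrank ℂ (LinearMap.ker f) ≤ finrank ℂ W1 := by
      refine LinearMap.finrank_le_finrank_of_injective
        (f := ((W.subtype).domRestrict (LinearMap.ker f)).codRestrict W1 fun v => ⟨v.1.2, fun a ha => ?_⟩) ?_
      · have h' : (bitOp i e10 *ᵥ (v.1 : Bits (2 * p + 1) → ℂ)) (Function.update a i true) = 0 :=
          congrFun (LinearMap.mem_ker.mp v.2) (Function.update a i true)
        have hu : Function.update a i false = a := by
          rw [← Bool.eq_false_of_not_eq_true ha]; exact Function.update_eq_self i a
        rw [xop_mulVec, Function.update_self, if_pos rfl, Function.update_idem, hu] at h'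
        exact h'
      · intro x y h
        exact Subtype.ext (Subtype.ext (congrArg Subtype.val h :))
    omega
  -- the map to the other slice
  have hd0 : finrank ℂ W1 ≤ finrank ℂ W0 + Nat.centralBinom p := by
    set B : Matrix (Bits (2 * p + 1)) (Bits (2 * p + 1)) ℂ :=
      (∑ j ∈ Finset.univ.erase i, ((w j : ℂ))⁻¹ • exch w i j) - (w i : ℂ) • (numOp (2 * p + 1) - 1) with hB
    have hBapply : ∀ v ∈ slice i true, ∀ a, (B *ᵥ v) a = if a i then 0 else
        ∑ j ∈ Finset.univ.erase i, if a j then
          (w j : ℂ) * v (Function.update (Function.update a j false) i true) else 0 := by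
      intro v hv a
      simp only [hB, Matrix.sub_mulVec, Matrix.sum_mulVec, Matrix.smul_mulVec, Matrix.one_mulVec,
        Pi.sub_apply, Finset.sum_apply, Pi.smul_apply, smul_eq_mul, exch_mulVec, numOp_mulVec]
      by_cases hai : a i
      · rw [if_pos hai, sub_eq_zero]
        have hterm : ∀ j ∈ Finset.univ.erase i, (w j : ℂ)⁻¹ *
            (swapWeight w i j (swapBits i j a) * v (swapBits i j a)) =
            if a j then (w i : ℂ) * v a else 0 := by
          intro j hj
          have hwj : (w j : ℂ) ≠ 0 := by exact_mod_cast (hw j).ne'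
          by_cases haj : a j
          · have hs : swapBits i j a = a := by
              funext k
              rcases eq_or_ne k i with rfl | hki
              · simp [swapBits, hai, haj]
              rcases eq_or_ne k j with rfl | hkj
              · simp [swapBits, hai, haj]
              · simp [swapBits, Equiv.swap_apply_of_ne_of_ne hki hkj]
            rw [if_pos haj, hs]
            simp only [swapWeight, hai, haj, if_true]
            field_simp
          · rw [if_neg haj, hv (swapBits i j a) (by simp [swapBits, haj]), mul_zero, mul_zero]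
        rw [Finset.sum_congr rfl hterm, ← Finset.sum_filter, Finset.sum_const, nsmul_eq_mul]
        have hc : ((Finset.univ.erase i).filter fun j => a j = true).card + 1 = cnt a := by
          rw [Finset.filter_erase, Finset.card_erase_add_one (by simp [hai])]
          rfl
        rw [← hc]
        push_cast
        ring
      · rw [if_neg hai, hv a (by simp [hai])]
        simp only [mul_zero, sub_zero]
        refine Finset.sum_congr rfl fun j hj => ?_
        have hji : j ≠ i := Finset.ne_of_mem_erase hj
        by_cases haj : a j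
        · have hs : swapBits i j a = Function.update (Function.update a j false) i true := by
            funext k
            rcases eq_or_ne k i with rfl | hki
            · simp [swapBits, haj]
            rcases eq_or_ne k j with rfl | hkj
            · simp [swapBits, hai, Function.update_of_ne hki]
            · simp [swapBits, Equiv.swap_apply_of_ne_of_ne hki hkj, Function.update_of_ne hki,
                Function.update_of_ne hkj]
          have hwj : (w j : ℂ) ≠ 0 := by exact_mod_cast (hw j).ne'
          rw [if_pos haj, hs]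
          simp only [swapWeight, Function.update_self, Function.update_of_ne hji, if_true,
            Bool.false_eq_true, if_false]
          field_simp
        · rw [if_neg haj, hv (swapBits i j a) (by simp [swapBits, haj]), mul_zero, mul_zero]
    have hBW : ∀ v ∈ W1, B *ᵥ v ∈ W0 := by
      intro v hv
      refine ⟨?_, fun a ha => by rw [hBapply v hv.2, if_pos (by simpa using ha)]⟩
      simp only [hB, Matrix.sub_mulVec, Matrix.sum_mulVec, Matrix.smul_mulVec, Matrix.one_mulVec]
      refine W.sub_mem (W.sum_mem fun j hj => W.smul_mem _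
        (hcom _ (exch_commute w (Finset.ne_of_mem_erase hj).symm) v hv.1))
        (W.smul_mem _ (W.sub_mem (hH v hv.1) hv.1))
    set g := ((Matrix.toLin' B).domRestrict W1).codRestrict W0 (fun v => hBW v v.2) with hg
    have h1 := LinearMap.finrank_range_add_finrank_ker g
    have h2 : finrank ℂ (LinearMap.range g) ≤ finrank ℂ W0 := Submodule.finrank_le _
    have h3 : finrank ℂ (LinearMap.ker g) ≤ Nat.centralBinom p := by
      refine le_trans ?_ (finrank_ker_le p (fun k => w (i.succAbove k)) fun k => hw _)
      let R : (Bits (2 * p + 1) → ℂ) →ₗ[ℂ] (Bits (2 * p) → ℂ) :=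
        LinearMap.funLeft ℂ ℂ fun c => Fin.insertNth i true c
      refine LinearMap.finrank_le_finrank_of_injective
        (f := ((R ∘ₗ W1.subtype).domRestrict (LinearMap.ker g)).codRestrict _ fun v => ?_) ?_
      · rw [LinearMap.mem_ker]
        funext c
        have hv : (B *ᵥ (v.1 : Bits (2 * p + 1) → ℂ)) (Fin.insertNth i false c) = 0 :=
          congrFun (congrArg Subtype.val (LinearMap.mem_ker.mp v.2)) _
        rw [hBapply _ v.1.2.2, Fin.insertNth_apply_same, if_neg (by simp)] at hv
        have : Finset.univ.erase i = Finset.univ.image i.succAbove := by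
          rw [← Finset.compl_singleton, Fin.image_succAbove_univ]
        rw [this, Finset.sum_image fun x _ y _ h => Fin.succAbove_right_injective h] at hv
        simp only [Matrix.toLin'_apply, Tw_mulVec, LinearMap.domRestrict_apply, Pi.zero_apply]
        refine Eq.trans ?_ hv
        refine Finset.sum_congr rfl fun k _ => ?_
        rw [Fin.insertNth_apply_succAbove]
        simp only [R, LinearMap.comp_apply, Submodule.subtype_apply, LinearMap.funLeft_apply]
        have key : Function.update (Function.update (Fin.insertNth i false c) (i.succAbove k) false)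
            i true = Fin.insertNth (α := fun _ => Bool) i true (Function.update c k false) := by
          rw [Fin.eq_insertNth_iff]
          refine ⟨Function.update_self _ _ _, funext fun l => ?_⟩
          simp only [Fin.removeNth, Function.update_of_ne (Fin.succAbove_ne i l),
            Function.update_apply, Fin.succAbove_right_injective.eq_iff,
            Fin.insertNth_apply_succAbove]
        rw [key]
      · intro x y h
        refine Subtype.ext (Subtype.ext (funext fun a => ?_))
        by_cases hai : a i
        · have := congrFun (congrArg Subtype.val h) (i.removeNth a)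
          have hu : Function.update a i true = a := by
            rw [← hai]; exact Function.update_eq_self i a
          simpa [R, LinearMap.funLeft_apply, Fin.insertNth_removeNth, hu] using this
        · rw [x.1.2.2 a hai, y.1.2.2 a hai]
    omega
  -- traces
  have htr : ∑ a, (A a a).re = (finrank ℂ W : ℝ) := by
    have hp : LinearMap.IsProj W (Matrix.toLin' A) :=
      ⟨fun x => LinearMap.mem_range_self _ _, fun x hx => hfix x hx⟩
    have := hp.trace
    rw [Matrix.trace_toLin'_eq] at this
    simpa [Matrix.trace, Complex.re_sum] using congrArg Complex.re this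
  have hlow := sum_re_slice_ge i A hA hA2
  rw [← hW, ← hW0] at hlow
  have hsplit : (∑ a, (if a i then (1 : ℝ) else -1) * (A a a).re) =
      (∑ a, (A a a).re) - 2 * ∑ a, if a i then (0 : ℝ) else (A a a).re := by
    rw [Finset.mul_sum, ← Finset.sum_sub_distrib]
    refine Finset.sum_congr rfl fun a _ => ?_
    split_ifs <;> ring
  have hd' : (finrank ℂ W : ℝ) ≤ 2 * finrank ℂ W1 := by exact_mod_cast hd
  have hd0' : (finrank ℂ W1 : ℝ) ≤ finrank ℂ W0 + (Nat.centralBinom p : ℝ) := by
    exact_mod_cast hd0
  have h2n : (2 : ℝ) ^ (2 * p + 1) = 2 * 4 ^ p := by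
    rw [pow_succ, pow_mul]; norm_num; ring
  unfold bias
  rw [hsplit, htr, h2n, div_le_div_iff₀ (by positivity) (by positivity)]
  nlinarith [pow_pos (show (0 : ℝ) < 4 by norm_num) p]

end

end Vale.Agent.P131
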