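import Vale.Agent.P131.Telescope

/-!
P131: vanishing bias gives commutation with every site algebra.
-/

namespace Vale.Agent.P131

open Matrix Filter Topology
open scoped ComplexOrder

noncomputable section

namespace SiteGen

section alg

open scoped MatrixOrder

variable {I : Type*} [Fintype I]

theorem nsq_sub_le (X Y : Matrix I I ℂ) : nsq (X - Y) ≤ 2 * nsq X + 2 * nsq Y := by
  simp only [nsq, ← mul_div_assoc, ← add_div, Finset.mul_sum, ← Finset.sum_add_distrib]
  gcongr with a _ b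
  rw [Matrix.sub_apply]
  nlinarith [norm_sub_le (X a b) (Y a b), norm_nonneg (X a b), norm_nonneg (Y a b),
    norm_nonneg (X a b - Y a b), sq_nonneg (‖X a b‖ - ‖Y a b‖)]

variable [DecidableEq I]

theorem tau_mul_nonneg {P Q : Matrix I I ℂ} (hP : P.PosSemidef) (hQ : Q.PosSemidef) :
    0 ≤ Tele.tau (P * Q) := by
  obtain ⟨B, rfl⟩ := CStarAlgebra.nonneg_iff_eq_star_mul_self.mp hP.nonneg
  rw [mul_assoc, Tele.tau_comm]
  exact Tele.tau_nonneg (hQ.mul_mul_conjTranspose_same B)

theorem commutator_eq (A X : Matrix I I ℂ) :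
    A * X - X * A = A * X * (1 - A) - (1 - A) * X * A := by
  noncomm_ring

theorem nsq_commutator_le {A : Matrix I I ℂ} (hA : A.IsHermitian) (X : Matrix I I ℂ) :
    nsq (A * X - X * A) ≤ 2 * nsq ((1 - A) * Xᴴ * A) + 2 * nsq ((1 - A) * X * A) := by
  rw [commutator_eq]
  refine (nsq_sub_le _ _).trans_eq ?_
  rw [← nsq_conjTranspose (A * X * (1 - A)), conjTranspose_mul, conjTranspose_mul,
    conjTranspose_sub, conjTranspose_one, hA.eq, ← mul_assoc]

/-- the commutator with a partial isometry is controlled by the bias -/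
theorem commutator_le_bias {A : Matrix I I ℂ} (hA : PosContr A) (x : Matrix I I ℂ) :
    nsq (A * x - x * A) ≤
      2 * (Tele.tau (A * (x * xᴴ)) - Tele.tau (A * (xᴴ * x)) +
        Real.sqrt (nsq x) * Real.sqrt (nsq ((1 - A) * x * A))) +
      2 * nsq ((1 - A) * x * A) := by
  refine (nsq_commutator_le hA.1.1 x).trans ?_
  gcongr
  have hAA := Tele.posSemidef_sub_sq hA
  have hA2 : (A * A).PosSemidef := by
    have := Matrix.posSemidef_conjTranspose_mul_self A
    rwa [hA.1.1.eq] at this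
  -- first term
  have h1 : nsq ((1 - A) * xᴴ * A) ≤ Tele.tau (xᴴ * A * x * (1 - A)) := by
    have e : Tele.tau (xᴴ * A * x * (1 - A)) - nsq ((1 - A) * xᴴ * A) =
        Tele.tau (xᴴ * (A - A * A) * x * (1 - A)) + Tele.tau (xᴴ * (A * A) * x * (A - A * A)) := by
      have e1 : nsq ((1 - A) * xᴴ * A) = Tele.tau (xᴴ * (A * A) * x * ((1 - A) * (1 - A))) := by
        rw [← nsq_conjTranspose, ← Tele.tau_star_mul, conjTranspose_conjTranspose,
          conjTranspose_mul, conjTranspose_mul, conjTranspose_sub, conjTranspose_one,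
          conjTranspose_conjTranspose, hA.1.1.eq]
        simp only [mul_assoc]
        rw [Tele.tau_comm]
        simp only [mul_assoc]
      rw [e1, ← Tele.tau_sub, ← Tele.tau_add]
      congr 1
      noncomm_ring
    have p1 := tau_mul_nonneg (hAA.conjTranspose_mul_mul_same x) hA.2
    have p2 := tau_mul_nonneg (hA2.conjTranspose_mul_mul_same x) hAA
    linarith
  -- second term
  have h2 : Tele.tau (x * A * xᴴ * (1 - A)) ≤
      Real.sqrt (nsq x) * Real.sqrt (nsq ((1 - A) * x * A)) := by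
    rw [Tele.tau_comm, ← mul_assoc, ← mul_assoc, mul_comm (Real.sqrt (nsq x)),
      ← nsq_conjTranspose x]
    exact (le_abs_self _).trans (Tele.tau_mul_le _ _)
  have e : Tele.tau (A * (x * xᴴ)) - Tele.tau (A * (xᴴ * x)) =
      Tele.tau (xᴴ * A * x * (1 - A)) - Tele.tau (x * A * xᴴ * (1 - A)) := by
    rw [mul_sub, mul_one, mul_sub, mul_one, Tele.tau_sub, Tele.tau_sub,
      Tele.tau_comm (xᴴ * A * x) A, Tele.tau_comm (x * A * xᴴ) A]
    have a1 : Tele.tau (A * (x * xᴴ)) = Tele.tau (xᴴ * A * x) := by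
      rw [← mul_assoc, Tele.tau_comm, ← mul_assoc]
    have a2 : Tele.tau (A * (xᴴ * x)) = Tele.tau (x * A * xᴴ) := by
      rw [← mul_assoc, Tele.tau_comm, ← mul_assoc]
    have a3 : Tele.tau (A * (xᴴ * A * x)) = Tele.tau (A * (x * A * xᴴ)) := by
      rw [← mul_assoc, ← mul_assoc, mul_assoc (A * xᴴ), Tele.tau_comm]
      simp only [mul_assoc]
    rw [a1, a2, a3]
    ring
  linarith

end alg

variable {K : ℕ → ℕ}

/-- exact commutation of every level with a matrix of site `l` -/
def Comm (A : ∀ m, Lvl K m) (l : ℕ) (M : Matrix (Site K l) (Site K l) ℂ) : Prop :=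
  ∀ (m : ℕ) (h : l < m), Commute (A m) (siteOp K (⟨l, h⟩ : Fin m) M)

/-- approximate invariance under a matrix of site `l` -/
def Small (A : ∀ m, Lvl K m) (l : ℕ) (M : Matrix (Site K l) (Site K l) ℂ) : Prop :=
  ∀ ε > 0, ∀ᶠ j in atTop, ∀ h : l < j,
    nsq ((1 - A j) * siteOp K (⟨l, h⟩ : Fin j) M * A j) ≤ ε

/-- a crude bound for the operator norm -/
def opBd {l : ℕ} (M : Matrix (Site K l) (Site K l) ℂ) : ℝ := (∑ v, ∑ u, ‖M v u‖ ^ 2) + 1

theorem opBd_spec {l : ℕ} (M : Matrix (Site K l) (Site K l) ℂ) :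
    1 ≤ opBd M ∧ ∑ v, ∑ u, ‖M v u‖ ^ 2 ≤ opBd M ^ 2 := by
  have : 0 ≤ ∑ v, ∑ u, ‖M v u‖ ^ 2 := by positivity
  constructor <;> unfold opBd <;> nlinarith

variable {A : ∀ m, Lvl K m} {η : ℕ → ℝ} {l : ℕ}

theorem Comm.mul {M N : Matrix (Site K l) (Site K l) ℂ} (hM : Comm A l M) (hN : Comm A l N) :
    Comm A l (M * N) := fun m h => by
  rw [← siteOp_mul]; exact (hM m h).mul_right (hN m h)

theorem Comm.add {M N : Matrix (Site K l) (Site K l) ℂ} (hM : Comm A l M) (hN : Comm A l N) :
    Comm A l (M + N) := fun m h => by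
  rw [siteOp_add]; exact (hM m h).add_right (hN m h)

theorem Comm.sub {M N : Matrix (Site K l) (Site K l) ℂ} (hM : Comm A l M) (hN : Comm A l N) :
    Comm A l (M - N) := fun m h => by
  rw [siteOp_sub]; exact (hM m h).sub_right (hN m h)

theorem Comm.smul {M : Matrix (Site K l) (Site K l) ℂ} (hM : Comm A l M) (c : ℂ) :
    Comm A l (c • M) := fun m h => by
  rw [siteOp_smul]; exact (hM m h).smul_right c

theorem Comm.one : Comm A l 1 := fun m h => by
  rw [siteOp_one]; exact Commute.one_right _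

theorem Comm.sum {ι : Type*} (s : Finset ι) {f : ι → Matrix (Site K l) (Site K l) ℂ}
    (h : ∀ i ∈ s, Comm A l (f i)) : Comm A l (∑ i ∈ s, f i) := by
  classical
  induction s using Finset.induction_on with
  | empty => simpa using (Comm.one (A := A) (l := l)).sub Comm.one
  | insert a s ha ih =>
    rw [Finset.sum_insert ha]
    exact (h a (by simp)).add (ih fun i hi => h i (by simp [hi]))

theorem Comm.star (hA : IsApprox K A η) {M : Matrix (Site K l) (Site K l) ℂ} (hM : Comm A l M) :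
    Comm A l Mᴴ := fun m h => by
  have e := congrArg conjTranspose (hM m h).eq
  rw [conjTranspose_mul, conjTranspose_mul, (hA.2.2.1 m).1.1.eq, siteOp_conjTranspose] at e
  exact e.symm

/-- small commutators are zero, by monotonicity -/
theorem comm_of_small (hA : IsApprox K A η) {M : Matrix (Site K l) (Site K l) ℂ}
    (hM : ∀ ε > 0, ∀ᶠ j in atTop, ∀ h : l < j,
      nsq (A j * siteOp K (⟨l, h⟩ : Fin j) M - siteOp K (⟨l, h⟩ : Fin j) M * A j) ≤ ε) :
    Comm A l M := by
  intro m h
  have h0 : nsq (A m * siteOp K (⟨l, h⟩ : Fin m) M - siteOp K (⟨l, h⟩ : Fin m) M * A m) = 0 := by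
    refine le_antisymm (le_of_forall_gt_imp_ge_of_dense fun ε hε => ?_) (nsq_nonneg _)
    obtain ⟨j, hj, hmj⟩ := ((hM ε hε).and (eventually_ge_atTop m)).exists
    exact (hA.2.2.2.2.2 l M m j h (h.trans_le hmj) hmj).trans (hj (h.trans_le hmj))
  rw [nsq, div_eq_zero_iff] at h0
  have hc : (Fintype.card (Idx K m) : ℝ) ≠ 0 := by exact_mod_cast Fintype.card_ne_zero
  refine sub_eq_zero.mp (Matrix.ext fun a b => ?_)
  have h1 := (Finset.sum_eq_zero_iff_of_nonneg fun c _ => Finset.sum_nonneg fun d _ => by positivity).mp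
    (h0.resolve_right hc) a (Finset.mem_univ a)
  have h2 := (Finset.sum_eq_zero_iff_of_nonneg fun d _ => by positivity).mp h1 b (Finset.mem_univ b)
  simpa using h2

theorem comm_of_small_pair (hA : IsApprox K A η) {M : Matrix (Site K l) (Site K l) ℂ}
    (h1 : Small A l M) (h2 : Small A l Mᴴ) : Comm A l M := by
  refine comm_of_small hA fun ε hε => ?_
  filter_upwards [h1 (ε / 4) (by positivity), h2 (ε / 4) (by positivity)] with j a b h
  have := nsq_commutator_le (hA.2.2.1 j).1.1 (siteOp K (⟨l, h⟩ : Fin j) M)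
  rw [siteOp_conjTranspose] at this
  linarith [a h, b h]

theorem commute_Tm_of_xD {m : ℕ} (l : Fin m) {M : Matrix (Site K l) (Site K l) ℂ}
    (hM : Commute M (xD K l)) : Commute (siteOp K l M) (Tm K m) := by
  refine Commute.sum_right _ _ _ fun l' _ => Commute.smul_right ?_ _
  by_cases h : l = l'
  · subst h
    change _ = _
    rw [siteOp_mul, siteOp_mul, hM.eq]
  · exact siteOp_commute K h _ _

theorem approx_bound (hA : IsApprox K A η) {M : Matrix (Site K l) (Site K l) ℂ}
    (hM : Commute M (xD K l)) (j : ℕ) (h : l < j) :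
    nsq ((1 - A j) * siteOp K (⟨l, h⟩ : Fin j) M * A j) ≤ (opBd M * η j) ^ 2 :=
  hA.2.2.2.2.1 j (siteOp K (⟨l, h⟩ : Fin j) M) (opBd M)
    (commute_Tm_of_xD (⟨l, h⟩ : Fin j) hM) (zero_le_one.trans (opBd_spec (K := K) (l := l) M).1)
    (fun Y => (nsq_siteOp_mul_le K (⟨l, h⟩ : Fin j) M (opBd M) (opBd_spec M).2 Y).1)
    (fun Y => (nsq_siteOp_mul_le K (⟨l, h⟩ : Fin j) M (opBd M) (opBd_spec M).2 Y).2)

theorem small_of_xD (hA : IsApprox K A η) {M : Matrix (Site K l) (Site K l) ℂ}
    (hM : Commute M (xD K l)) : Small A l M := by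
  intro ε hε
  have ht : Tendsto (fun j => (opBd M * η j) ^ 2) atTop (𝓝 0) := by
    simpa using (hA.2.1.const_mul (opBd M)).pow 2
  filter_upwards [ht.eventually (eventually_le_nhds hε)] with j hj h
  exact (approx_bound hA hM j h).trans hj

theorem Small.mul_comm {M N : Matrix (Site K l) (Site K l) ℂ} (hM : Small A l M)
    (hN : Comm A l N) : Small A l (M * N) := by
  intro ε hε
  have hC : 0 < opBd N ^ 2 := by have := (opBd_spec N).1; positivity
  filter_upwards [hM (ε / opBd N ^ 2) (by positivity)] with j hj h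
  have hj' := hj h
  have e : (1 - A j) * siteOp K (⟨l, h⟩ : Fin j) (M * N) * A j =
      (1 - A j) * siteOp K (⟨l, h⟩ : Fin j) M * A j * siteOp K (⟨l, h⟩ : Fin j) N := by
    rw [← siteOp_mul]
    simp only [mul_assoc]
    rw [(hN j h).eq]
  rw [e]
  refine ((nsq_siteOp_mul_le K (⟨l, h⟩ : Fin j) N (opBd N) (opBd_spec (K := K) (l := l) N).2
    ((1 - A j) * siteOp K (⟨l, h⟩ : Fin j) M * A j)).2).trans ?_
  calc opBd N ^ 2 * nsq ((1 - A j) * siteOp K (⟨l, h⟩ : Fin j) M * A j)
      ≤ opBd N ^ 2 * (ε / opBd N ^ 2) := by gcongr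
    _ = ε := mul_div_cancel₀ _ hC.ne'

theorem siteOp_diagonal {m : ℕ} (l : Fin m) (f : Site K l → ℂ) :
    siteOp K l (Matrix.diagonal f) = Matrix.diagonal fun a => f (a l) := by
  ext a b
  by_cases hab : a = b
  · subst hab; simp [siteOp]
  · rw [Matrix.diagonal_apply_ne _ hab]
    simp only [siteOp, Matrix.of_apply]
    split_ifs with h
    · refine Matrix.diagonal_apply_ne _ fun hl => hab (funext fun j => ?_)
      by_cases hj : j = l
      · subst hj; exact hl
      · exact h j hj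
    · rfl

theorem xS_apply (s t : Site K l) :
    xS K l s t = if s.1 = true ∧ t.1 = false ∧ s.2 = t.2 then 1 else 0 := by
  rcases s with ⟨sb, sk⟩
  rcases t with ⟨tb, tk⟩
  cases sb <;> cases tb <;> simp [xS, e10, Matrix.single_apply]

theorem xS_xD : Commute (xS K l) (xD K l) := by
  change _ = _
  ext ⟨sb, sk⟩ ⟨tb, tk⟩
  simp [Matrix.mul_apply, Fintype.sum_prod_type, xS, xD, e10, Matrix.single_apply]

theorem bDown_xD : Commute (bDown K l) (xD K l) := by
  change _ = _
  ext ⟨sb, sk⟩ ⟨tb, tk⟩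
  simp only [Matrix.mul_apply, Fintype.sum_prod_type, Fintype.sum_bool, bDown, xD, e10,
    Matrix.of_apply, Matrix.single_apply]
  by_cases h : (tk : ℕ) = (sk : ℕ) + 1
  · cases sb <;> cases tb <;> simp [h, pow_succ]
    rw [Finset.sum_eq_single sk] <;> simp +contextual [Ne.symm, mul_comm]
  · cases sb <;> cases tb <;> simp [h]
    exact (Finset.sum_eq_zero fun x _ => by split_ifs with h1 h2 <;> simp_all).symm

theorem xS_star_mul : (xS K l)ᴴ * xS K l = eS K l := by
  ext ⟨sb, sk⟩ ⟨tb, tk⟩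
  simp [Matrix.mul_apply, Fintype.sum_prod_type, xS_apply, eS, Matrix.diagonal_apply,
    Matrix.conjTranspose_apply]
  cases sb <;> cases tb <;> simp [eq_comm]

theorem xS_mul_star : xS K l * (xS K l)ᴴ = 1 - eS K l := by
  ext ⟨sb, sk⟩ ⟨tb, tk⟩
  simp [Matrix.mul_apply, Fintype.sum_prod_type, xS_apply, eS, Matrix.diagonal_apply,
    Matrix.one_apply, Matrix.conjTranspose_apply]
  cases sb <;> cases tb <;> simp [eq_comm]

theorem lvlBias_eq {m : ℕ} (l : Fin m) (B : Lvl K m) :
    lvlBias K l B = Tele.tau (B * siteOp K l (xS K l * (xS K l)ᴴ)) -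
      Tele.tau (B * siteOp K l ((xS K l)ᴴ * xS K l)) := by
  rw [← Tele.tau_sub, ← mul_sub, ← siteOp_sub, xS_mul_star, xS_star_mul, eS,
    ← Matrix.diagonal_one, Matrix.diagonal_sub, Matrix.diagonal_sub, siteOp_diagonal]
  simp only [lvlBias, Tele.tau, ntr, Complex.div_natCast_re, Matrix.trace, Matrix.diag,
    Matrix.mul_diagonal, Complex.re_sum]
  congr 1
  refine Finset.sum_congr rfl fun a _ => ?_
  cases (a l).1 <;> simp

theorem comm_xS (hA : IsApprox K A η) (hb : BiasVanishes K A) : Comm A l (xS K l) := by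
  refine comm_of_small hA fun ε hε => ?_
  set C := opBd (xS K l) with hC
  have hC1 : 1 ≤ C := (opBd_spec _).1
  have ht : Tendsto (fun j => 2 * (C * (C * η j)) + 2 * (C * η j) ^ 2) atTop (𝓝 0) := by
    simpa using (((hA.2.1.const_mul C).const_mul C).const_mul 2).add
      (((hA.2.1.const_mul C).pow 2).const_mul 2)
  filter_upwards [hb l (ε / 4) (by positivity),
    ht.eventually (eventually_le_nhds (half_pos hε))] with j hj1 hj2 h
  have hη := hA.1 j
  set x := siteOp K (⟨l, h⟩ : Fin j) (xS K l) with hx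
  have hg : nsq ((1 - A j) * x * A j) ≤ (C * η j) ^ 2 := approx_bound hA xS_xD j h
  have hxn : Real.sqrt (nsq x) ≤ C := by
    rw [Real.sqrt_le_left (by linarith)]
    have h1 := (nsq_siteOp_mul_le K (⟨l, h⟩ : Fin j) (xS K l) C (opBd_spec _).2 1).1
    rw [mul_one] at h1
    exact h1.trans (mul_le_of_le_one_right (by positivity) Tele.nsq_one_le)
  have hgs : Real.sqrt (nsq ((1 - A j) * x * A j)) ≤ C * η j :=
    (Real.sqrt_le_left (by positivity)).mpr hg
  have hmul : Real.sqrt (nsq x) * Real.sqrt (nsq ((1 - A j) * x * A j)) ≤ C * (C * η j) :=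
    mul_le_mul hxn hgs (Real.sqrt_nonneg _) (by linarith)
  have main := commutator_le_bias (hA.2.2.1 j) x
  have hbias : Tele.tau (A j * (x * xᴴ)) - Tele.tau (A j * (xᴴ * x)) =
      lvlBias K (⟨l, h⟩ : Fin j) (A j) := by
    rw [lvlBias_eq, hx, siteOp_conjTranspose, siteOp_mul, siteOp_mul]
  rw [hbias] at main
  linarith [hj1 h]

/-- the plain shift of the counter -/
def shUp (K : ℕ → ℕ) (l : ℕ) : Matrix (Site K l) (Site K l) ℂ :=
  Matrix.of fun s t => if s.1 = t.1 ∧ (s.2 : ℕ) = (t.2 : ℕ) + 1 then 1 else 0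

theorem shUp_eq : shUp K l = bUp K l * ((2 : ℂ) • 1 - eS K l) := by
  rw [eS, ← Matrix.diagonal_one, ← Matrix.diagonal_smul, Matrix.diagonal_sub]
  ext ⟨sb, sk⟩ ⟨tb, tk⟩
  simp only [shUp, bUp, Matrix.mul_diagonal, Matrix.of_apply, Pi.smul_apply, smul_eq_mul]
  cases sb <;> cases tb <;> simp
  all_goals split_ifs <;> norm_num

theorem shUp_star_eq : (shUp K l)ᴴ = bDown K l * (1 + eS K l) := by
  rw [eS, ← Matrix.diagonal_one, Matrix.diagonal_add]
  ext ⟨sb, sk⟩ ⟨tb, tk⟩
  simp only [shUp, bDown, Matrix.mul_diagonal, Matrix.of_apply, Matrix.conjTranspose_apply]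
  cases sb <;> cases tb <;> simp
  all_goals split_ifs <;> norm_num

theorem comm_shUp (hA : IsApprox K A η) (hx : Comm A l (xS K l)) : Comm A l (shUp K l) := by
  have he : Comm A l (eS K l) := by
    rw [← xS_star_mul]; exact (hx.star hA).mul hx
  refine comm_of_small_pair hA ?_ ?_
  · rw [shUp_eq]
    exact (small_of_xD hA (Tele.bUp_xD K l)).mul_comm ((Comm.one.smul 2).sub he)
  · rw [shUp_star_eq]
    exact (small_of_xD hA bDown_xD).mul_comm (Comm.one.add he)

/-- matrix unit of the counter -/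
def eK (K : ℕ → ℕ) (l : ℕ) (k k' : Fin (K l + 1)) : Matrix (Site K l) (Site K l) ℂ :=
  Matrix.of fun s t => if s.1 = t.1 ∧ s.2 = k ∧ t.2 = k' then 1 else 0

theorem eK_self (k : Fin (K l + 1)) : eK K l k k = kS K l k := by
  ext ⟨sb, sk⟩ ⟨tb, tk⟩
  simp only [eK, kS, Matrix.of_apply, Matrix.diagonal_apply, Prod.mk.injEq]
  by_cases h1 : sk = k <;> by_cases h2 : tk = k <;> simp_all [Ne.symm]

theorem eK_succ (k' : Fin (K l + 1)) (i : ℕ) (h : i + 1 < K l + 1) :
    eK K l ⟨i + 1, h⟩ k' = shUp K l * eK K l ⟨i, by omega⟩ k' := by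
  ext ⟨sb, sk⟩ ⟨tb, tk⟩
  rw [Matrix.mul_apply, Finset.sum_eq_single (sb, (⟨i, by omega⟩ : Fin (K l + 1)))]
  · simp only [eK, shUp, Matrix.of_apply, Fin.ext_iff]
    by_cases h1 : (sk : ℕ) = i + 1 <;> simp [h1]
  · rintro ⟨cb, ck⟩ - hc
    simp only [eK, shUp, Matrix.of_apply]
    by_cases hb : sb = cb
    · subst hb
      have hne : ¬ ck = (⟨i, by omega⟩ : Fin (K l + 1)) := fun e => hc (by rw [e])
      simp [hne]
    · simp [hb]
  · simp

theorem comm_eK (hA : IsApprox K A η) (hs : Comm A l (shUp K l)) (k k' : Fin (K l + 1)) :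
    Comm A l (eK K l k k') := by
  have hge : ∀ (d : ℕ) (k' : Fin (K l + 1)) (h : (k' : ℕ) + d < K l + 1),
      Comm A l (eK K l ⟨k' + d, h⟩ k') := by
    intro d
    induction d with
    | zero =>
      intro k' h
      have e : (⟨(k' : ℕ) + 0, h⟩ : Fin (K l + 1)) = k' := Fin.ext (add_zero _)
      rw [e, eK_self]
      exact fun m hm => hA.2.2.2.1 m ⟨l, hm⟩ k'
    | succ d ih =>
      intro k' h
      have e : (⟨(k' : ℕ) + (d + 1), h⟩ : Fin (K l + 1)) = ⟨(k' : ℕ) + d + 1, by omega⟩ :=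
        Fin.ext (by simp [add_assoc])
      rw [e, eK_succ]
      exact hs.mul (ih k' (by omega))
  rcases le_total (k' : ℕ) k with hle | hle
  · have := hge ((k : ℕ) - k') k' (by omega)
    simpa [Nat.add_sub_cancel' hle] using this
  · have := (hge ((k' : ℕ) - k) k (by omega)).star hA
    have e : (eK K l k' k)ᴴ = eK K l k k' := by
      ext s t
      simp only [eK, Matrix.conjTranspose_apply, Matrix.of_apply]
      rw [apply_ite (Star.star : ℂ → ℂ), star_one, star_zero]
      exact if_congr (by tauto) rfl rfl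
    rw [← e]
    simpa [Nat.add_sub_cancel' hle] using this

theorem single_eq (k k' : Fin (K l + 1)) :
    Matrix.single (true, k) (false, k') (1 : ℂ) = xS K l * eK K l k k' := by
  ext ⟨sb, sk⟩ ⟨tb, tk⟩
  rw [Matrix.mul_apply, Finset.sum_eq_single (false, sk)]
  · simp only [xS_apply, eK, Matrix.of_apply, Matrix.single_apply, Prod.mk.injEq]
    cases sb <;> cases tb <;> simp [eq_comm]
  · rintro ⟨cb, ck⟩ - hc
    simp only [xS_apply]
    by_cases h : cb = false
    · subst h
      have hne : ¬ sk = ck := fun e => hc (by rw [e])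
      simp [hne]
    · simp [h]
  · simp

theorem comm_single (hA : IsApprox K A η) (hb : BiasVanishes K A) (s t : Site K l) :
    Comm A l (Matrix.single s t 1) := by
  have hx := comm_xS (l := l) hA hb
  have h10 : ∀ k k' : Fin (K l + 1), Comm A l (Matrix.single (true, k) (false, k') 1) :=
    fun k k' => by rw [single_eq]; exact hx.mul (comm_eK hA (comm_shUp hA hx) k k')
  have h01 : ∀ k k' : Fin (K l + 1), Comm A l (Matrix.single (false, k) (true, k') 1) :=
    fun k k' => by simpa using (h10 k' k).star hA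
  rcases s with ⟨_ | _, k⟩ <;> rcases t with ⟨_ | _, k'⟩
  · simpa using (h01 k k).mul (h10 k k')
  · exact h01 k k'
  · exact h10 k k'
  · simpa using (h10 k k).mul (h01 k k')

end SiteGen

open SiteGen in
/-- vanishing bias gives commutation -/
theorem siteSpec : SiteSpec := by
  intro K A η hA hb l M m h
  have : Comm A l M := by
    rw [Matrix.matrix_eq_sum_single M]
    refine Comm.sum _ fun s _ => Comm.sum _ fun t _ => ?_
    simpa [Matrix.smul_single] using (comm_single hA hb s t).smul (M s t)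
  exact (this m h).eq

end

end Vale.Agent.P131
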