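import Vale.Agent.P131.Blk
import Vale.Agent.P131.Specs

/-!
P131: the gauge bound by telescoping along the counter.
-/

namespace Vale.Agent.P131

open Matrix Filter Topology
open scoped ComplexOrder

noncomputable section

namespace Tele

section alg

variable {I : Type*} [Fintype I] [DecidableEq I]

/-- real part of the normalised trace -/
def tau (X : Matrix I I ℂ) : ℝ := (ntr X).re

omit [DecidableEq I] in
theorem tau_add (X Y : Matrix I I ℂ) : tau (X + Y) = tau X + tau Y := by
  simp [tau, ntr, Matrix.trace_add, add_div]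

omit [DecidableEq I] in
theorem tau_sub (X Y : Matrix I I ℂ) : tau (X - Y) = tau X - tau Y := by
  simp [tau, ntr, Matrix.trace_sub, sub_div]

omit [DecidableEq I] in
theorem tau_comm (X Y : Matrix I I ℂ) : tau (X * Y) = tau (Y * X) := by
  simp only [tau, ntr, Matrix.trace_mul_comm X Y]

omit [DecidableEq I] in
theorem tau_smul (c : ℝ) (X : Matrix I I ℂ) : tau ((c : ℂ) • X) = c * tau X := by
  simp [tau, ntr, Matrix.trace_smul, mul_div_assoc]

omit [DecidableEq I] in
theorem tau_nonneg {X : Matrix I I ℂ} (h : X.PosSemidef) : 0 ≤ tau X := by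
  have h1 := (Complex.nonneg_iff.mp h.trace_nonneg).1
  simp only [tau, ntr, Complex.div_natCast_re]
  positivity

omit [DecidableEq I] in
theorem tau_star_mul (X : Matrix I I ℂ) : tau (Xᴴ * X) = nsq X := by
  simp only [tau, ntr, nsq, Complex.div_natCast_re]
  congr 1
  rw [Finset.sum_comm]
  simp [Matrix.trace, Matrix.mul_apply, Complex.sq_norm, Complex.normSq_apply]

omit [DecidableEq I] in
/-- Cauchy-Schwarz -/
theorem tau_mul_le (X Y : Matrix I I ℂ) :
    |tau (X * Y)| ≤ Real.sqrt (nsq X) * Real.sqrt (nsq Y) := by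
  have hn : (0 : ℝ) ≤ Fintype.card I := Nat.cast_nonneg _
  have key : (∑ a, ∑ b, ‖X a b‖ * ‖Y b a‖) ^ 2 ≤
      (∑ a, ∑ b, ‖X a b‖ ^ 2) * ∑ a, ∑ b, ‖Y a b‖ ^ 2 := by
    have h := Finset.sum_mul_sq_le_sq_mul_sq (Finset.univ : Finset (I × I))
      (fun q => ‖X q.1 q.2‖) (fun q => ‖Y q.2 q.1‖)
    simp only [Fintype.sum_prod_type] at h
    rw [Finset.sum_comm (f := fun a b => ‖Y a b‖ ^ 2)]
    exact h
  have hle : |((X * Y).trace).re| ≤ ∑ a, ∑ b, ‖X a b‖ * ‖Y b a‖ := by
    refine (Complex.abs_re_le_norm _).trans ?_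
    simp only [Matrix.trace, Matrix.diag, Matrix.mul_apply]
    refine (norm_sum_le _ _).trans (Finset.sum_le_sum fun a _ => ?_)
    exact (norm_sum_le _ _).trans_eq (by simp)
  simp only [tau, ntr, nsq, Complex.div_natCast_re]
  rw [abs_div, Nat.abs_cast, Real.sqrt_div (by positivity), Real.sqrt_div (by positivity),
    div_mul_div_comm, Real.mul_self_sqrt hn]
  gcongr
  refine hle.trans ?_
  rw [← Real.sqrt_mul (by positivity)]
  exact Real.le_sqrt_of_sq_le key

theorem nsq_one_le : nsq (1 : Matrix I I ℂ) ≤ 1 := by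
  simp only [nsq]
  refine div_le_one_of_le₀ ?_ (Nat.cast_nonneg _)
  simp [Matrix.one_apply, apply_ite (fun z : ℂ => ‖z‖ ^ 2)]

/-- `A - A * A` is positive -/
theorem posSemidef_sub_sq {A : Matrix I I ℂ} (hA : PosContr A) : (A - A * A).PosSemidef := by
  have h : A - A * A = Aᴴ * (1 - A) * A + (1 - A)ᴴ * A * (1 - A) := by
    rw [hA.1.1.eq, conjTranspose_sub, conjTranspose_one, hA.1.1.eq]
    noncomm_ring
  rw [h]
  exact (hA.2.conjTranspose_mul_mul_same A).add (hA.1.conjTranspose_mul_mul_same (1 - A))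

theorem nsq_contr_mul_le {A : Matrix I I ℂ} (hA : PosContr A) (Y : Matrix I I ℂ) :
    nsq (A * Y) ≤ nsq Y := by
  rw [← tau_star_mul, ← tau_star_mul Y]
  have h : Yᴴ * Y - (A * Y)ᴴ * (A * Y) = Yᴴ * ((1 - A) + (A - A * A)) * Y := by
    rw [conjTranspose_mul, hA.1.1.eq]
    noncomm_ring
  have := tau_nonneg ((hA.2.add (posSemidef_sub_sq hA)).conjTranspose_mul_mul_same Y)
  rw [← h, tau_sub] at this
  linarith

omit [DecidableEq I] in
/-- pairing with a projection is positive -/
theorem tau_mul_proj_nonneg {X F : Matrix I I ℂ} (hX : X.PosSemidef) (hF : F.IsHermitian)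
    (hF2 : F * F = F) : 0 ≤ tau (X * F) := by
  have := tau_nonneg (hX.conjTranspose_mul_mul_same F)
  rwa [hF.eq, tau_comm, ← mul_assoc, hF2, tau_comm] at this

/-- the telescoping inequality at one level -/
theorem gauge_alg (A B E p : Matrix I I ℂ) (C : ℝ) (hA : PosContr A)
    (hE : E.IsHermitian) (hE2 : E * E = E) (hp : p.IsHermitian) (hp2 : p * p = p)
    (hAp : Commute A p) (hEp : Commute E p)
    (h1 : Bᴴ * B = ((4⁻¹ : ℝ) : ℂ) • (1 - p) + ((3 / 4 : ℝ) : ℂ) • (E * (1 - p)))
    (h2 : Bᴴ * E * B = E * (1 - p)) (hC : 1 ≤ C)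
    (hB : ∀ Y, nsq (B * Y) ≤ C ^ 2 * nsq Y) (hB' : ∀ Y, nsq (Bᴴ * Y) ≤ C ^ 2 * nsq Y)
    (hEb : ∀ Y, nsq (E * Y) ≤ C ^ 2 * nsq Y) :
    nsq (A * E - E * A) ≤
      14 / 3 * tau (E * p) + 16 * C ^ 4 * Real.sqrt (nsq ((1 - A) * B * A)) := by
  have hC0 : 0 ≤ C := by linarith
  set s := Real.sqrt (nsq ((1 - A) * B * A)) with hs
  set q := 1 - p with hqdef
  have hq : q.IsHermitian := Matrix.isHermitian_one.sub hp
  have hq2 : q * q = q := by
    rw [hqdef, mul_sub, mul_one, sub_mul, one_mul, hp2, sub_self, sub_zero]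
  have hAq : Commute A q := (Commute.one_right A).sub_right hAp
  have hEq : Commute E q := (Commute.one_right E).sub_right hEp
  set X := B * A * Bᴴ with hX
  set G := (1 - A) * B * A with hG
  have hA' : Aᴴ = A := hA.1.1.eq
  -- quadratic estimates
  have one' : nsq (1 : Matrix I I ℂ) ≤ C ^ 0 := by simpa using nsq_one_le (I := I)
  have stepB : ∀ {Y : Matrix I I ℂ} {n : ℕ}, nsq Y ≤ C ^ n → nsq (B * Y) ≤ C ^ (n + 2) :=
    fun {Y n} h => (hB Y).trans (by rw [pow_add, mul_comm (C ^ n)]; gcongr)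
  have stepB' : ∀ {Y : Matrix I I ℂ} {n : ℕ}, nsq Y ≤ C ^ n → nsq (Bᴴ * Y) ≤ C ^ (n + 2) :=
    fun {Y n} h => (hB' Y).trans (by rw [pow_add, mul_comm (C ^ n)]; gcongr)
  have stepE : ∀ {Y : Matrix I I ℂ} {n : ℕ}, nsq Y ≤ C ^ n → nsq (E * Y) ≤ C ^ (n + 2) :=
    fun {Y n} h => (hEb Y).trans (by rw [pow_add, mul_comm (C ^ n)]; gcongr)
  have stepA : ∀ {Y : Matrix I I ℂ} {n : ℕ}, nsq Y ≤ C ^ n → nsq (A * Y) ≤ C ^ n :=
    fun {Y n} h => (nsq_contr_mul_le hA Y).trans h
  have bound : ∀ (Z Y : Matrix I I ℂ) (n : ℕ), nsq Z = nsq G → nsq Y ≤ C ^ n → n ≤ 8 →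
      |tau (Z * Y)| ≤ s * C ^ 4 := by
    intro Z Y n hZ hY hn
    refine (tau_mul_le Z Y).trans ?_
    rw [hZ]
    refine mul_le_mul_of_nonneg_left ?_ (Real.sqrt_nonneg _)
    rw [Real.sqrt_le_left (by positivity), ← pow_mul]
    exact hY.trans (pow_le_pow_right₀ hC hn)
  have e1 := bound G (Bᴴ * (E * 1)) 4 rfl (stepB' (stepE one')) (by norm_num)
  have e2 := bound G (Bᴴ * (B * (A * (Bᴴ * (E * 1))))) 8 rfl
    (stepB' (stepB (stepA (stepB' (stepE one'))))) le_rfl
  have e3 := bound Gᴴ (E * (A * (B * 1))) 4 (nsq_conjTranspose G)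
    (stepE (stepA (stepB one'))) (by norm_num)
  have e4 := bound Gᴴ (E * (A * (B * (A * (Bᴴ * (B * 1)))))) 8 (nsq_conjTranspose G)
    (stepE (stepA (stepB (stepA (stepB' (stepB one')))))) le_rfl
  simp only [mul_one] at e1 e2 e3 e4
  -- the range of R
  set R := 2 • X - X * X with hR
  have hdec : tau (R * E) = tau (A * R * A * E) +
      (2 * tau (G * (Bᴴ * E)) - tau (G * (Bᴴ * (B * (A * (Bᴴ * E)))))) +
      (2 * tau (Gᴴ * (E * (A * B))) - tau (Gᴴ * (E * (A * (B * (A * (Bᴴ * B))))))) := by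
    have d1 : R * E = A * R * A * E + (1 - A) * R * E + A * R * (1 - A) * E := by noncomm_ring
    have d2 : (1 - A) * R * E = G * (Bᴴ * E) + G * (Bᴴ * E)
        - G * (Bᴴ * (B * (A * (Bᴴ * E)))) := by
      rw [hR, hX, hG]; noncomm_ring
    have d3 : A * R * (1 - A) * E = A * B * (Gᴴ * E) + A * B * (Gᴴ * E)
        - A * B * A * Bᴴ * B * (Gᴴ * E) := by
      rw [hR, hX, hG]
      simp only [conjTranspose_mul, conjTranspose_sub, conjTranspose_one, hA']
      noncomm_ring
    rw [d1, tau_add, tau_add, d2, d3, tau_sub, tau_sub, tau_add, tau_add,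
      tau_comm (A * B) (Gᴴ * E), tau_comm (A * B * A * Bᴴ * B) (Gᴴ * E)]
    simp only [mul_assoc]
    ring
  have hARA : tau (A * R * A * E) ≤ tau (A * A * E) := by
    have hXh : Xᴴ = X := by simp [hX, hA', mul_assoc]
    have h : ((1 - X)ᴴ * (1 - X)).PosSemidef := Matrix.posSemidef_conjTranspose_mul_self _
    have h' := tau_mul_proj_nonneg (h.conjTranspose_mul_mul_same A) hE hE2
    have eq : Aᴴ * ((1 - X)ᴴ * (1 - X)) * A * E = A * A * E - A * R * A * E := by
      rw [hA', conjTranspose_sub, conjTranspose_one, hXh, hR]; noncomm_ring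
    rw [eq, tau_sub] at h'
    linarith
  have hA2E : tau (A * A * E) ≤ tau (A * E) := by
    have h' := tau_mul_proj_nonneg (posSemidef_sub_sq hA) hE hE2
    rw [sub_mul, tau_sub] at h'
    linarith
  -- evaluation of the trace of R E
  have hXE : tau (X * E) = tau (A * E * q) := by
    calc tau (X * E) = tau (B * (A * (Bᴴ * E))) := by simp only [hX, mul_assoc]
      _ = tau (A * (Bᴴ * E * B)) := by rw [tau_comm]; simp only [mul_assoc]
      _ = _ := by rw [h2, mul_assoc]
  have hXXE : tau (X * X * E) = 4⁻¹ * tau (A * A * E * q) + 3 / 4 * tau (A * E * A * E * q) := by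
    have h3 : tau (X * X * E) = tau (A * (Bᴴ * B) * (A * (Bᴴ * E * B))) := by
      calc tau (X * X * E) = tau (B * (A * (Bᴴ * (B * (A * (Bᴴ * E)))))) := by
            simp only [hX, mul_assoc]
        _ = _ := by rw [tau_comm]; simp only [mul_assoc]
    have h4 : A * q * (A * (E * q)) = A * A * E * q := by
      calc A * q * (A * (E * q)) = A * (q * A) * E * q := by simp only [mul_assoc]
        _ = A * A * (q * E) * q := by rw [← hAq.eq]; simp only [mul_assoc]
        _ = A * A * E * (q * q) := by rw [← hEq.eq]; simp only [mul_assoc]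
        _ = _ := by rw [hq2]
    have h5 : A * (E * q) * (A * (E * q)) = A * E * A * E * q := by
      calc A * (E * q) * (A * (E * q)) = A * E * (q * A) * E * q := by simp only [mul_assoc]
        _ = A * E * A * (q * E) * q := by rw [← hAq.eq]; simp only [mul_assoc]
        _ = A * E * A * E * (q * q) := by rw [← hEq.eq]; simp only [mul_assoc]
        _ = _ := by rw [hq2]
    rw [h3, h1, h2, mul_add, add_mul, tau_add, Matrix.mul_smul, Matrix.mul_smul, Matrix.smul_mul,
      Matrix.smul_mul, tau_smul, tau_smul, h4, h5]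
  have hRE : tau (R * E) = 2 * tau (X * E) - tau (X * X * E) := by
    rw [hR, sub_mul, tau_sub, two_nsmul, add_mul, tau_add, two_mul]
  -- the slab of the last counter value
  have hEpH : (E * p).IsHermitian := (Matrix.IsHermitian.commute_iff hE hp).mp hEp
  have hEp2 : E * p * (E * p) = E * p := by
    rw [mul_assoc, ← mul_assoc p E p, ← hEp.eq, mul_assoc E p p, hp2, ← mul_assoc, hE2]
  have hEqH : (E * q).IsHermitian := (Matrix.IsHermitian.commute_iff hE hq).mp hEq
  have hEq2 : E * q * (E * q) = E * q := by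
    rw [mul_assoc, ← mul_assoc q E q, ← hEq.eq, mul_assoc E q q, hq2, ← mul_assoc, hE2]
  have p1 : 0 ≤ tau (A * E * q) - tau (A * A * E * q) := by
    have h' := tau_mul_proj_nonneg (posSemidef_sub_sq hA) hEqH hEq2
    rwa [sub_mul, tau_sub, ← mul_assoc, ← mul_assoc] at h'
  have p2 : tau (A * A * E * p) ≤ tau (A * E * p) := by
    have h' := tau_mul_proj_nonneg (posSemidef_sub_sq hA) hEpH hEp2
    rw [sub_mul, tau_sub, ← mul_assoc, ← mul_assoc] at h'
    linarith
  have p3 : tau (A * E * p) ≤ tau (E * p) := by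
    have h' := tau_mul_proj_nonneg hA.2 hEpH hEp2
    rw [sub_mul, one_mul, tau_sub, ← mul_assoc] at h'
    linarith
  have p4 : 0 ≤ tau (A * E * A * E * p) := by
    have h' := tau_mul_proj_nonneg
      (Matrix.posSemidef_conjTranspose_mul_self (E * A * E)) hp hp2
    have eq : (E * A * E)ᴴ * (E * A * E) * p = E * (A * E * A * E * p) := by
      rw [conjTranspose_mul, conjTranspose_mul, hE.eq, hA']
      simp only [mul_assoc]; rw [← mul_assoc E E, hE2]
    rwa [eq, tau_comm, mul_assoc _ p E, ← hEp.eq, ← mul_assoc (A * E * A * E),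
      mul_assoc (A * E * A) E E, hE2] at h'
  have q1 : tau (A * E * q) = tau (A * E) - tau (A * E * p) := by
    rw [hqdef, mul_sub, mul_one, tau_sub]
  have q2 : tau (A * A * E * q) = tau (A * A * E) - tau (A * A * E * p) := by
    rw [hqdef, mul_sub, mul_one, tau_sub]
  have q4 : tau (A * E * A * E * q) = tau (A * E * A * E) - tau (A * E * A * E * p) := by
    rw [hqdef, mul_sub, mul_one, tau_sub]
  have hcomm : nsq (A * E - E * A) = 2 * (tau (A * A * E) - tau (A * E * A * E)) := by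
    rw [← tau_star_mul, conjTranspose_sub, conjTranspose_mul, conjTranspose_mul, hE.eq, hA',
      sub_mul, mul_sub, mul_sub, tau_sub, tau_sub, tau_sub]
    have a1 : tau (E * A * (A * E)) = tau (A * A * E) := by
      rw [mul_assoc, tau_comm]; simp only [mul_assoc]; rw [hE2]
    have a2 : tau (E * A * (E * A)) = tau (A * E * A * E) := by
      rw [mul_assoc, tau_comm]; simp only [mul_assoc]
    have a3 : tau (A * E * (A * E)) = tau (A * E * A * E) := by simp only [mul_assoc]
    have a4 : tau (A * E * (E * A)) = tau (A * A * E) := by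
      rw [tau_comm]; simp only [mul_assoc]
      rw [tau_comm]; simp only [mul_assoc]; rw [hE2]
    rw [a1, a2, a3, a4]; ring
  have b1 := abs_le.mp e1
  have b2 := abs_le.mp e2
  have b3 := abs_le.mp e3
  have b4 := abs_le.mp e4
  have hs0 : 0 ≤ s * C ^ 4 := mul_nonneg (Real.sqrt_nonneg _) (by positivity)
  rw [hXE, hXXE] at hRE
  rw [mul_assoc, mul_comm (C ^ 4) s]
  linarith

end alg

section site

variable (K : ℕ → ℕ) (l : ℕ)

/-- the last counter value -/
def pS : Matrix (Site K l) (Site K l) ℂ := kS K l (Fin.last (K l))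

theorem bUp_conj (f : Site K l → ℂ) :
    (bUp K l)ᴴ * Matrix.diagonal f * bUp K l = Matrix.diagonal fun s =>
      if h : (s.2 : ℕ) < K l then
        (if s.1 then (4⁻¹ : ℂ) else 1) * f (s.1, ⟨(s.2 : ℕ) + 1, by omega⟩) else 0 := by
  ext s t
  rw [Matrix.mul_apply]
  by_cases ht : (t.2 : ℕ) < K l
  · rw [Finset.sum_eq_single (t.1, (⟨(t.2 : ℕ) + 1, by omega⟩ : Fin (K l + 1)))]
    · rcases s with ⟨sb, sk⟩
      rcases t with ⟨tb, tk⟩
      simp only [Matrix.mul_diagonal, Matrix.conjTranspose_apply, bUp, Matrix.of_apply,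
        Matrix.diagonal_apply, Prod.mk.injEq, Fin.ext_iff]
      by_cases hb : tb = sb
      · subst hb
        by_cases hk : (sk : ℕ) = tk
        · obtain rfl : sk = tk := Fin.ext hk
          cases tb <;> simp [ht]
          ring
        · simp [hk, Ne.symm hk]
      · simp [hb, Ne.symm hb]
    · rintro ⟨cb, ck⟩ - hc
      have : ¬ (cb = t.1 ∧ (ck : ℕ) = (t.2 : ℕ) + 1) := fun h =>
        hc (Prod.ext h.1 (Fin.ext h.2))
      simp [bUp, this]
    · simp
  · rw [Finset.sum_eq_zero]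
    · simp [Matrix.diagonal_apply]
      rintro rfl h
      exact absurd h ht
    · rintro ⟨cb, ck⟩ -
      have : ¬ (cb = t.1 ∧ (ck : ℕ) = (t.2 : ℕ) + 1) := fun h => by
        have := ck.2; omega
      simp [bUp, this]

theorem bUp_star_mul : (bUp K l)ᴴ * bUp K l =
    ((4⁻¹ : ℝ) : ℂ) • (1 - pS K l) + ((3 / 4 : ℝ) : ℂ) • (eS K l * (1 - pS K l)) := by
  have h := bUp_conj K l (fun _ => 1)
  rw [Matrix.diagonal_one, mul_one] at h
  rw [h, pS, kS, eS, ← Matrix.diagonal_one, Matrix.diagonal_sub, Matrix.diagonal_mul_diagonal,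
    ← Matrix.diagonal_smul, ← Matrix.diagonal_smul, Matrix.diagonal_add]
  congr 1
  funext s
  rcases s with ⟨b, k⟩
  by_cases hk : (k : ℕ) < K l
  · have : k ≠ Fin.last (K l) := fun e => by simp [e] at hk
    cases b <;> simp [hk, this]; norm_num
  · have : k = Fin.last (K l) := Fin.ext (by have := k.2; simp; omega)
    simp [this]

theorem bUp_eS : (bUp K l)ᴴ * eS K l * bUp K l = eS K l * (1 - pS K l) := by
  rw [eS, bUp_conj K l, pS, kS, ← Matrix.diagonal_one, Matrix.diagonal_sub,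
    Matrix.diagonal_mul_diagonal]
  congr 1
  funext s
  rcases s with ⟨b, k⟩
  by_cases hk : (k : ℕ) < K l
  · have : k ≠ Fin.last (K l) := fun e => by simp [e] at hk
    cases b <;> simp [hk, this]
  · have : k = Fin.last (K l) := Fin.ext (by have := k.2; simp; omega)
    simp [this]

theorem bUp_xD : Commute (bUp K l) (xD K l) := by
  change _ = _
  ext ⟨sb, sk⟩ ⟨tb, tk⟩
  simp only [Matrix.mul_apply, Fintype.sum_prod_type, Fintype.sum_bool, bUp, xD, e10,
    Matrix.of_apply, Matrix.single_apply]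
  by_cases h : (sk : ℕ) = (tk : ℕ) + 1
  · cases sb <;> cases tb <;> simp [h, pow_succ]
    rw [Finset.sum_eq_single sk] <;> simp +contextual [h, Ne.symm, mul_comm]
  · cases sb <;> cases tb <;> simp [h]
    exact (Finset.sum_eq_zero fun x _ => by split_ifs with h1 h2 <;> simp_all).symm

theorem commute_Tm {m : ℕ} (l : Fin m) : Commute (siteOp K l (bUp K l)) (Tm K m) := by
  refine Commute.sum_right _ _ _ fun l' _ => Commute.smul_right ?_ _
  by_cases h : l = l'
  · subst h
    change _ = _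
    rw [siteOp_mul, siteOp_mul, (bUp_xD K l).eq]
  · exact siteOp_commute K h _ _

theorem frob_bUp : ∑ v, ∑ u, ‖bUp K l v u‖ ^ 2 ≤ ((2 * (K l + 1) : ℕ) : ℝ) ^ 2 := by
  have h : ∀ v u, ‖bUp K l v u‖ ^ 2 ≤ 1 := by
    intro v u
    simp only [bUp, Matrix.of_apply]
    split_ifs <;> norm_num
  refine (Finset.sum_le_sum fun v _ => Finset.sum_le_sum fun u _ => h v u).trans_eq ?_
  simp
  ring

theorem frob_eS : ∑ v, ∑ u, ‖eS K l v u‖ ^ 2 ≤ ((2 * (K l + 1) : ℕ) : ℝ) ^ 2 := by
  have h : ∀ v u, ‖eS K l v u‖ ^ 2 ≤ 1 := by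
    intro v u
    simp only [eS, Matrix.diagonal_apply]
    split_ifs <;> norm_num
  refine (Finset.sum_le_sum fun v _ => Finset.sum_le_sum fun u _ => h v u).trans_eq ?_
  simp
  ring

theorem tau_slab {m : ℕ} (l : Fin m) :
    tau (siteOp K l (eS K l) * siteOp K l (pS K l)) = 1 / (2 * ((K l : ℝ) + 1)) := by
  have ht : (eS K l * pS K l).trace = 1 := by
    simp [pS, kS, eS, Matrix.trace, Fintype.sum_prod_type]
  rw [siteOp_mul, siteOp_eq_blk, tau, ntr, blk_trace, Complex.div_natCast_re,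
    Fintype.card_congr (siteEquiv K l), Fintype.card_prod, Finset.sum_const, ht]
  have hR : (0 : ℝ) < Fintype.card ((j : {j : Fin m // j ≠ l}) → Site K (j : Fin m)) := by
    exact_mod_cast Fintype.card_pos
  simp only [Finset.card_univ, nsmul_eq_mul, mul_one, Complex.natCast_re, Site, Fintype.card_prod, Fintype.card_bool,
    Fintype.card_fin]
  push_cast
  field_simp

end site

end Tele

open Tele in
/-- the gauge bound -/
theorem telescopeSpec : TelescopeSpec := by
  intro K A η ⟨hη0, hη, hA, hk, happ, hmono⟩ m l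
  set C : ℝ := ((2 * (K l + 1) : ℕ) : ℝ) with hCdef
  have hC : 1 ≤ C := by rw [hCdef]; exact_mod_cast (by omega : 1 ≤ 2 * (K l + 1))
  have hb : ∀ j, m ≤ j → nsq (A m * siteOp K l (eS K l) - siteOp K l (eS K l) * A m) ≤
      7 / (3 * ((K l : ℝ) + 1)) + 16 * C ^ 4 * (C * η j) := by
    intro j hmj
    have hlj : (l : ℕ) < j := l.2.trans_le hmj
    refine (hmono l (eS K l) m j l.2 hlj hmj).trans ?_
    set l' : Fin j := ⟨l, hlj⟩
    have herm : ∀ {M : Matrix (Site K l) (Site K l) ℂ}, Mᴴ = M → (siteOp K l' M).IsHermitian :=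
      fun {M} h => by rw [Matrix.IsHermitian, siteOp_conjTranspose]; exact congrArg _ h
    have hbd := nsq_siteOp_mul_le K l' (bUp K l) C (frob_bUp K l)
    have main := gauge_alg (A j) (siteOp K l' (bUp K l)) (siteOp K l' (eS K l))
      (siteOp K l' (pS K l)) C (hA j) (herm (by simp [eS, apply_ite star]))
      (by rw [siteOp_mul]; congr 1; simp [eS])
      (herm (by simp [pS, kS, apply_ite star]))
      (by rw [siteOp_mul]; congr 1; simp [pS, kS])
      (hk j l' (Fin.last (K l)))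
      (by change _ = _; rw [siteOp_mul, siteOp_mul]; congr 1; simp [eS, pS, kS, mul_comm])
      (by rw [siteOp_conjTranspose, siteOp_mul, bUp_star_mul, siteOp_add, siteOp_smul,
            siteOp_smul, ← siteOp_mul, siteOp_sub, siteOp_one])
      (by rw [siteOp_conjTranspose, siteOp_mul, siteOp_mul, bUp_eS, ← siteOp_mul, siteOp_sub,
            siteOp_one])
      hC (fun Y => (hbd Y).1)
      (fun Y => by
        rw [siteOp_conjTranspose]
        refine (nsq_siteOp_mul_le K l' _ C ?_ Y).1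
        rw [Finset.sum_comm]
        exact le_of_eq_of_le (by simp [Matrix.conjTranspose_apply]; rfl) (frob_bUp K l))
      (fun Y => (nsq_siteOp_mul_le K l' _ C (frob_eS K l) Y).1)
    refine main.trans (add_le_add ?_ ?_)
    · rw [tau_slab]
      refine le_of_eq ?_
      simp only [l']
      field_simp
      norm_num
    · refine mul_le_mul_of_nonneg_left ?_ (by positivity)
      rw [Real.sqrt_le_left (mul_nonneg (by linarith) (hη0 j))]
      exact happ j _ C (commute_Tm K l') (by linarith) (fun Y => (hbd Y).1) (fun Y => (hbd Y).2)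
  have hlim : Tendsto (fun j => 7 / (3 * ((K l : ℝ) + 1)) + 16 * C ^ 4 * (C * η j)) atTop
      (𝓝 (7 / (3 * ((K l : ℝ) + 1)))) := by
    simpa using ((hη.const_mul C).const_mul (16 * C ^ 4)).const_add (7 / (3 * ((K l : ℝ) + 1)))
  refine (ge_of_tendsto hlim (eventually_atTop.mpr ⟨m, hb⟩)).trans ?_
  rw [div_le_div_iff₀ (by positivity) (by positivity)]
  nlinarith [(Nat.cast_nonneg (K l) : (0 : ℝ) ≤ K l)]

end

end Vale.Agent.P131
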