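import Vale.Agent.P131.Telescope

/-!
P131: the window estimate and the recursive choice of `K`.
-/

namespace Vale.Agent.P131

open Matrix Filter Topology
open scoped ComplexOrder

noncomputable section

namespace Win

/-! ### generic facts -/

theorem contr_sub_le {I : Type*} [Fintype I] (X Y : Matrix I I ℂ) :
    nsq (X + Y) ≤ 2 * nsq X + 2 * nsq Y := by
  simp only [nsq, ← mul_div_assoc, ← add_div, Finset.mul_sum, ← Finset.sum_add_distrib,
    Matrix.add_apply]
  gcongr with a _ b _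
  calc ‖X a b + Y a b‖ ^ 2 ≤ (‖X a b‖ + ‖Y a b‖) ^ 2 := by gcongr; exact norm_add_le _ _
    _ ≤ 2 * ‖X a b‖ ^ 2 + 2 * ‖Y a b‖ ^ 2 := by nlinarith [sq_nonneg (‖X a b‖ - ‖Y a b‖)]

theorem nsq_mul_contr_le {I : Type*} [Fintype I] [DecidableEq I] {A : Matrix I I ℂ}
    (hA : PosContr A) (Y : Matrix I I ℂ) : nsq (Y * A) ≤ nsq Y := by
  rw [← nsq_conjTranspose, conjTranspose_mul, hA.1.1.eq, ← nsq_conjTranspose Y]
  exact Tele.nsq_contr_mul_le hA _

theorem one_sub {I : Type*} [Fintype I] [DecidableEq I] {A : Matrix I I ℂ} (hA : PosContr A) :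
    PosContr (1 - A) :=
  ⟨hA.2, by rw [sub_sub_cancel]; exact hA.1⟩

/-- the error made by replacing `A` with a nearby positive contraction -/
theorem nsq_conj_le {I : Type*} [Fintype I] [DecidableEq I] {A A' : Matrix I I ℂ}
    (hA : PosContr A) (hA' : PosContr A') (b : Matrix I I ℂ) {F : ℝ}
    (hl : ∀ Y, nsq (b * Y) ≤ F * nsq Y) (hr : ∀ Y, nsq (Y * b) ≤ F * nsq Y) :
    nsq ((1 - A') * b * A') ≤ 2 * nsq ((1 - A) * b * A) + 8 * F * nsq (A - A') := by
  have e : (1 - A') * b * A' =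
      (1 - A) * b * A + ((1 - A) * (b * (A' - A)) + (A - A') * b * A') := by noncomm_ring
  rw [e]
  have h1 : nsq ((1 - A) * (b * (A' - A))) ≤ F * nsq (A - A') := by
    refine ((Tele.nsq_contr_mul_le (one_sub hA) _).trans (hl _)).trans (le_of_eq ?_)
    congr 1
    simp only [nsq, Matrix.sub_apply, norm_sub_rev]
  have h2 : nsq ((A - A') * b * A') ≤ F * nsq (A - A') :=
    (nsq_mul_contr_le hA' _).trans (hr _)
  linarith [contr_sub_le ((1 - A) * b * A) ((1 - A) * (b * (A' - A)) + (A - A') * b * A'),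
    contr_sub_le ((1 - A) * (b * (A' - A))) ((A - A') * b * A')]

/-- block matrices commute with operators preserving the label -/
theorem blk_commute {I V R : Type*} [Fintype I] [Fintype V] [Fintype R] [DecidableEq R]
    [DecidableEq V] (e : I ≃ V × R) (f : R → Matrix V V ℂ) (X : Matrix I I ℂ) (N : R → R → ℂ)
    (hX : ∀ a b, X a b = if (e a).1 = (e b).1 then N (e a).2 (e b).2 else 0)
    (hf : ∀ r r', N r r' ≠ 0 → f r = f r') : Commute (blk e f) X := by
  change _ = _
  ext a b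
  obtain ⟨⟨v, r⟩, rfl⟩ := e.symm.surjective a
  obtain ⟨⟨u, t⟩, rfl⟩ := e.symm.surjective b
  rw [blk_mul_apply, Matrix.mul_apply, sum_equiv_prod e]
  simp only [hX, blk_apply, Equiv.apply_symm_apply]
  simp
  rcases eq_or_ne (N r t) 0 with h | h
  · simp [h]
  · rw [hf r t h, mul_comm]

variable (K : ℕ → ℕ)

/-- labels of the blocks of the window `[0, n)` -/
abbrev Lab (m n : ℕ) : Type :=
  ((l : Fin m) → Fin (K l + 1)) × ({l : Fin m // n ≤ (l : ℕ)} → Bool)

/-- the window bits against everything else -/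
def winEquiv {n m : ℕ} (h : n ≤ m) : Idx K m ≃ Bits n × Lab K m n where
  toFun a := (fun j => (a (Fin.castLE h j)).1, (fun l => (a l).2, fun l => (a l.1).1))
  invFun x := fun l => (if hl : (l : ℕ) < n then x.1 ⟨l, hl⟩ else x.2.2 ⟨l, not_lt.1 hl⟩, x.2.1 l)
  left_inv a := by
    funext l
    by_cases hl : (l : ℕ) < n <;> simp [hl]
  right_inv := by
    rintro ⟨v, k, d⟩
    simp only [Prod.mk.injEq]
    refine ⟨?_, trivial, ?_⟩
    · funext j
      simp
    · funext l
      simp [not_lt.2 l.2]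

variable {K}

/-- the counters inside the window -/
def winK {n m : ℕ} (h : n ≤ m) (r : Lab K m n) : (j : Fin n) → Fin (K j + 1) :=
  fun j => r.1 (Fin.castLE h j)

/-- the weights of the window -/
def wt {n : ℕ} {Kf : Fin n → ℕ} (k : (j : Fin n) → Fin (Kf j + 1)) (j : Fin n) : ℝ :=
  (1 / 2) ^ (j : ℕ) * (1 / 2) ^ (k j : ℕ)

theorem wt_pos {n : ℕ} {Kf : Fin n → ℕ} (k : (j : Fin n) → Fin (Kf j + 1)) (j : Fin n) :
    0 < wt k j := by
  unfold wt; positivity

theorem siteOp_xD_win {n m : ℕ} (h : n ≤ m) (j : Fin n) :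
    ((1 / 2 : ℂ) ^ (j : ℕ)) • siteOp K (Fin.castLE h j) (xD K j) =
      blk (winEquiv K h) (fun r => ((wt (winK h r) j : ℝ) : ℂ) • bitOp j e10) := by
  ext a b
  simp only [Matrix.smul_apply, siteOp, bitOp, blk_apply, Matrix.of_apply, smul_eq_mul, wt, winK,
    winEquiv, Equiv.coe_fn_mk, xD]
  by_cases hab : ∀ i, i ≠ Fin.castLE h j → a i = b i
  · rw [if_pos hab]
    by_cases hk : (a (Fin.castLE h j)).2 = (b (Fin.castLE h j)).2
    · have h2 : ((fun l => (a l).2, fun l : {l : Fin m // n ≤ (l : ℕ)} => (a l.1).1) : Lab K m n)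
          = (fun l => (b l).2, fun l => (b l.1).1) := by
        refine Prod.ext (funext fun l => ?_) (funext fun l => ?_)
        · rcases eq_or_ne l (Fin.castLE h j) with e | e
          · subst e; exact hk
          · simp [hab l e]
        · have : (l.1 : Fin m) ≠ Fin.castLE h j := fun e => by
            have := congrArg Fin.val e; simp at this; omega
          simp [hab l.1 this]
      have h3 : ∀ i, i ≠ j → (a (Fin.castLE h i)).1 = (b (Fin.castLE h i)).1 := fun i hi => by
        rw [hab _ fun e => hi (Fin.castLE_injective h e)]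
      rw [if_pos h2, if_pos hk, if_pos h3]
      push_cast
      ring
    · have h2 : ((fun l => (a l).2, fun l : {l : Fin m // n ≤ (l : ℕ)} => (a l.1).1) : Lab K m n)
          ≠ (fun l => (b l).2, fun l => (b l.1).1) := fun e => hk (congrFun (congrArg Prod.fst e) _)
      rw [if_neg h2, if_neg hk]
      ring
  · rw [if_neg hab, mul_zero]
    split_ifs with h2 h3 <;> try simp
    exfalso
    apply hab
    intro i hi
    refine Prod.ext ?_ (congrFun (congrArg Prod.fst h2) i)
    by_cases hin : (i : ℕ) < n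
    · exact h3 ⟨i, hin⟩ fun e => hi (by rw [← e]; rfl)
    · exact congrFun (congrArg Prod.snd h2) ⟨i, not_lt.1 hin⟩

theorem commute_deep {n m : ℕ} (h : n ≤ m) (l : Fin m) (hl : n ≤ (l : ℕ))
    (g : ((j : Fin n) → Fin (K j + 1)) → Matrix (Bits n) (Bits n) ℂ) :
    Commute (blk (winEquiv K h) fun r => g (winK h r)) (siteOp K l (xD K l)) := by
  refine blk_commute _ _ _ (fun r r' => if r.1 = r'.1 ∧ ∀ i, i ≠ ⟨l, hl⟩ → r.2 i = r'.2 i then
    e10 (r.2 ⟨l, hl⟩) (r'.2 ⟨l, hl⟩) * (1 / 2 : ℂ) ^ (r.1 l : ℕ) else 0) (fun a b => ?_) ?_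
  · simp only [siteOp, xD, Matrix.of_apply, winEquiv, Equiv.coe_fn_mk]
    by_cases hab : ∀ i, i ≠ l → a i = b i
    · rw [if_pos hab]
      have h1 : (fun j => (a (Fin.castLE h j)).1) = fun j => (b (Fin.castLE h j)).1 :=
        funext fun j => by
          rw [hab]; intro e
          have := congrArg Fin.val e; simp at this; omega
      simp only [h1, ↓reduceIte]
      by_cases hk : (a l).2 = (b l).2
      · have h2 : (fun i => (a i).2) = fun i => (b i).2 := funext fun i => by
          rcases eq_or_ne i l with e | e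
          · subst e; exact hk
          · simp [hab i e]
        rw [if_pos hk]
        exact (if_pos ⟨h2, fun i hi => by rw [hab i.1 fun e => hi (Subtype.ext e)]⟩).symm
      · rw [if_neg hk, mul_zero]
        exact (if_neg fun h2 => hk (congrFun h2.1 l)).symm
    · rw [if_neg hab]
      refine (ite_eq_right_iff.2 fun hw => ite_eq_right_iff.2 fun hd => ?_).symm
      exfalso
      apply hab
      intro i hi
      refine Prod.ext ?_ (congrFun hd.1 i)
      by_cases hin : (i : ℕ) < n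
      · exact congrFun hw ⟨i, hin⟩
      · exact hd.2 ⟨i, not_lt.1 hin⟩ fun e => hi (congrArg Subtype.val e)
  · intro r r' hr
    have : r.1 = r'.1 := by
      by_contra hne
      exact hr (if_neg fun hh => hne hh.1)
    have h2 : winK h r = winK h r' := funext fun j => congrFun this (Fin.castLE h j)
    rw [h2]

/-- block matrices with commutant entries commute with `Tm` -/
theorem commute_Tm {n m : ℕ} (h : n ≤ m)
    (g : ((j : Fin n) → Fin (K j + 1)) → Matrix (Bits n) (Bits n) ℂ)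
    (hg : ∀ k, Commute (g k) (Tw (wt k))) :
    Commute (blk (winEquiv K h) fun r => g (winK h r)) (Tm K m) := by
  classical
  rw [Tm, ← Finset.sum_filter_add_sum_filter_not Finset.univ (fun l : Fin m => (l : ℕ) < n)]
  refine Commute.add_right ?_ (Commute.sum_right _ _ _ fun l hl => ?_)
  · have hf : (Finset.univ.filter fun l : Fin m => (l : ℕ) < n) =
        Finset.univ.map (Fin.castLEEmb h) := by
      ext l
      simp only [Finset.mem_filter, Finset.mem_univ, true_and, Finset.mem_map, Fin.castLEEmb_apply]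
      exact ⟨fun hl => ⟨⟨l, hl⟩, rfl⟩, fun ⟨j, hj⟩ => hj ▸ j.2⟩
    rw [hf, Finset.sum_map]
    have hs : ∑ j : Fin n, blk (winEquiv K h) (fun r => ((wt (winK h r) j : ℝ) : ℂ) • bitOp j e10)
        = blk (winEquiv K h) fun r => Tw (wt (winK h r)) := by
      ext a b
      simp only [Matrix.sum_apply, blk_apply, Tw]
      split_ifs <;> simp
    refine (congrArg (Commute _)
      ((Finset.sum_congr rfl fun j _ => siteOp_xD_win h j).trans hs)).mpr ?_
    change _ = _
    rw [blk_mul, blk_mul]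
    congr 1
    funext r
    exact (hg _).eq
  · exact (commute_deep h l (not_lt.1 (Finset.mem_filter.1 hl).2) g).smul_right _

/-- the block of `A` at `r` -/
def blockAt {n m : ℕ} (h : n ≤ m) (A : Lvl K m) (r : Lab K m n) :
    Matrix (Bits n) (Bits n) ℂ :=
  A.submatrix (fun v => (winEquiv K h).symm (v, r)) (fun v => (winEquiv K h).symm (v, r))

theorem posContr_blockAt {n m : ℕ} (h : n ≤ m) {A : Lvl K m} (hA : PosContr A) (r : Lab K m n) :
    PosContr (blockAt h A r) := by
  refine ⟨hA.1.submatrix _, ?_⟩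
  have := hA.2.submatrix fun v => (winEquiv K h).symm (v, r)
  rwa [show (1 - A).submatrix _ _ = 1 - blockAt h A r from ?_] at this
  ext v u
  simp [blockAt, Matrix.one_apply]

theorem posSemidef_blk {I V R : Type*} [Fintype I] [Fintype V] [Fintype R] [DecidableEq R]
    (e : I ≃ V × R) {f : R → Matrix V V ℂ} (hf : ∀ r, (f r).PosSemidef) :
    (blk e f).PosSemidef := by
  refine Matrix.PosSemidef.submatrix ?_ _
  rw [posSemidef_iff_dotProduct_mulVec]
  refine ⟨?_, fun x => ?_⟩
  · rw [Matrix.IsHermitian, Matrix.blockDiagonal_conjTranspose]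
    congr 1
    funext r
    exact (hf r).1.eq
  · have : star x ⬝ᵥ (Matrix.blockDiagonal f *ᵥ x) =
        ∑ r, star (fun v => x (v, r)) ⬝ᵥ (f r *ᵥ fun v => x (v, r)) := by
      simp only [dotProduct, Matrix.mulVec, Fintype.sum_prod_type, Matrix.blockDiagonal_apply,
        Pi.star_apply]
      rw [Finset.sum_comm]
      refine Finset.sum_congr rfl fun r _ => Finset.sum_congr rfl fun v _ => ?_
      simp
    rw [this]
    exact Finset.sum_nonneg fun r _ => (hf r).dotProduct_mulVec_nonneg _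

theorem posContr_mask {n m : ℕ} (h : n ≤ m) {A : Lvl K m} (hA : PosContr A) :
    PosContr (blk (winEquiv K h) (blockAt h A)) := by
  refine ⟨posSemidef_blk _ fun r => (posContr_blockAt h hA r).1, ?_⟩
  rw [← blk_one (winEquiv K h), ← blk_sub]
  exact posSemidef_blk _ fun r => (posContr_blockAt h hA r).2

theorem siteOp_diag {m : ℕ} (l : Fin m) (f : Site K l → ℂ) :
    siteOp K l (Matrix.diagonal f) = Matrix.diagonal fun a => f (a l) := by
  ext a b
  rcases eq_or_ne a b with rfl | hne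
  · simp [siteOp]
  · rw [Matrix.diagonal_apply_ne _ hne]
    simp only [siteOp, Matrix.of_apply]
    split_ifs with hh
    · refine Matrix.diagonal_apply_ne _ fun e => hne (funext fun j => ?_)
      rcases eq_or_ne j l with rfl | hj
      · exact e
      · exact hh j hj
    · rfl

/-- entries of `A` off the window blocks are controlled by the gauge commutators -/
theorem nsq_sub_mask_le {n m : ℕ} (h : n ≤ m) {A : Lvl K m}
    (hk : ∀ (l : Fin m) (k : Fin (K l + 1)), Commute A (siteOp K l (kS K l k))) :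
    nsq (A - blk (winEquiv K h) (blockAt h A)) ≤
      ∑ l ∈ Finset.univ.filter (fun l : Fin m => n ≤ (l : ℕ)),
        nsq (A * siteOp K l (eS K l) - siteOp K l (eS K l) * A) := by
  classical
  simp only [nsq, ← Finset.sum_div]
  gcongr
  rw [Finset.sum_comm (s := Finset.univ.filter fun l : Fin m => n ≤ (l : ℕ))]
  refine Finset.sum_le_sum fun a _ => ?_
  rw [Finset.sum_comm]
  refine Finset.sum_le_sum fun b _ => ?_
  by_cases hb : ((winEquiv K h) a).2 = ((winEquiv K h) b).2
  · refine le_of_eq_of_le ?_ (Finset.sum_nonneg fun l _ => by positivity)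
    have e : blockAt h A ((winEquiv K h) a).2 ((winEquiv K h) a).1 ((winEquiv K h) b).1 = A a b := by
      simp only [blockAt, Matrix.submatrix_apply, Prod.eta]
      rw [hb]
      simp
    rw [Matrix.sub_apply, blk_apply, if_pos hb, e, sub_self]
    simp
  rw [Matrix.sub_apply, blk_apply, if_neg hb, sub_zero]
  by_cases hA0 : A a b = 0
  · rw [hA0]; simp
    exact Finset.sum_nonneg fun l _ => by positivity
  have hkk : (fun l => (a l).2) = fun l => (b l).2 := funext fun l => by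
    by_contra hne
    have := congrFun (congrFun (hk l (a l).2).eq a) b
    rw [kS, siteOp_diag, Matrix.mul_diagonal, Matrix.diagonal_mul] at this
    simp [Ne.symm hne] at this
    exact hA0 this.symm
  obtain ⟨l, hl, hne⟩ : ∃ l : Fin m, n ≤ (l : ℕ) ∧ (a l).1 ≠ (b l).1 := by
    by_contra hh
    push Not at hh
    exact hb (Prod.ext hkk (funext fun l => hh l.1 l.2))
  refine le_trans ?_ (Finset.single_le_sum (fun l _ => by positivity)
    (Finset.mem_filter.2 ⟨Finset.mem_univ l, hl⟩))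
  rw [Matrix.sub_apply, eS, siteOp_diag, Matrix.mul_diagonal, Matrix.diagonal_mul]
  cases ha : (a l).1 <;> cases hb' : (b l).1 <;> simp_all

theorem lvlBias_eq {n m : ℕ} (h : n ≤ m) (i : Fin n) (A : Lvl K m) :
    lvlBias K (Fin.castLE h i) A =
      (∑ r, bias i (blockAt h A r)) / (Fintype.card (Lab K m n) : ℝ) := by
  have hc : (Fintype.card (Idx K m) : ℝ) = 2 ^ n * Fintype.card (Lab K m n) := by
    rw [Fintype.card_congr (winEquiv K h), Fintype.card_prod]
    simp [Bits]
  simp only [lvlBias, bias, blockAt, Matrix.submatrix_apply, ← Finset.sum_div, div_div, hc,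
    sum_equiv_prod (winEquiv K h)]
  congr 1
  refine Finset.sum_congr rfl fun r _ => Finset.sum_congr rfl fun v _ => ?_
  simp [winEquiv]

/-! ### the choice of `K` -/

section choice

variable (hC : CompactSpec)

/-- the constant of `CompactSpec` -/
def cL {p : ℕ} {Kf : Fin (2 * p + 1) → ℕ} (k : (j : Fin (2 * p + 1)) → Fin (Kf j + 1))
    (i : Fin (2 * p + 1)) : ℝ := (hC p (wt k) (wt_pos k) i).choose

/-- the matrices of `CompactSpec` -/
def cB {p : ℕ} {Kf : Fin (2 * p + 1) → ℕ} (k : (j : Fin (2 * p + 1)) → Fin (Kf j + 1))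
    (i : Fin (2 * p + 1)) : Bits (2 * p + 1) × Bits (2 * p + 1) →
      Matrix (Bits (2 * p + 1)) (Bits (2 * p + 1)) ℂ :=
  (hC p (wt k) (wt_pos k) i).choose_spec.choose

theorem c_spec {p : ℕ} {Kf : Fin (2 * p + 1) → ℕ} (k : (j : Fin (2 * p + 1)) → Fin (Kf j + 1))
    (i : Fin (2 * p + 1)) :
    0 ≤ cL hC k i ∧ (∀ q, Commute (cB hC k i q) (Tw (wt k))) ∧
      ∀ A, PosContr A → bias i A ≤ (Nat.centralBinom p : ℝ) / 4 ^ p + 1 / (p + 1) +
        cL hC k i * (nsq (A - A * A) + ∑ q, nsq ((1 - A) * cB hC k i q * A)) :=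
  (hC p (wt k) (wt_pos k) i).choose_spec.choose_spec

/-- a common bound of the constants -/
def bigL (p : ℕ) (Kf : Fin (2 * p + 1) → ℕ) : ℝ :=
  ∑ k : (j : Fin (2 * p + 1)) → Fin (Kf j + 1), ∑ i, cL hC k i

/-- a common bound of the matrices -/
def bigC (p : ℕ) (Kf : Fin (2 * p + 1) → ℕ) : ℝ :=
  1 + ∑ k : (j : Fin (2 * p + 1)) → Fin (Kf j + 1), ∑ i, ∑ q, ∑ v, ∑ u, ‖cB hC k i q v u‖ ^ 2

theorem bigL_nonneg (p : ℕ) (Kf : Fin (2 * p + 1) → ℕ) : 0 ≤ bigL hC p Kf :=
  Finset.sum_nonneg fun k _ => Finset.sum_nonneg fun i _ => (c_spec hC k i).1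

theorem bigC_pos (p : ℕ) (Kf : Fin (2 * p + 1) → ℕ) : 1 ≤ bigC hC p Kf :=
  le_add_of_nonneg_right (by positivity)

/-- the size which `K` must beat after the window -/
def need (p : ℕ) (Kf : Fin (2 * p + 1) → ℕ) : ℝ :=
  bigL hC p Kf * bigC hC p Kf * ((Fintype.card (Bits (2 * p + 1) × Bits (2 * p + 1)) : ℝ) + 1)

theorem need_nonneg (p : ℕ) (Kf : Fin (2 * p + 1) → ℕ) : 0 ≤ need hC p Kf :=
  mul_nonneg (mul_nonneg (bigL_nonneg hC p Kf) (zero_le_one.trans (bigC_pos hC p Kf)))
    (by positivity)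

/-- the value at `l` from the values below -/
def nextK (f : ℕ → ℕ) (l : ℕ) : ℕ :=
  ⌈(2 : ℝ) ^ l * ∑ p ∈ (Finset.range (l + 1)).filter (fun p => 2 * p + 1 ≤ l),
    ((p : ℝ) + 1) * need hC p (fun j : Fin (2 * p + 1) => f (j : ℕ))⌉₊

/-- the prefixes of `K` -/
def preK : ℕ → ℕ → ℕ
  | 0 => fun _ => 0
  | n + 1 => Function.update (preK n) n (nextK hC (preK n) n)

/-- the counters -/
def theK (l : ℕ) : ℕ := preK hC (l + 1) l

theorem preK_stable : ∀ n j, j < n → preK hC n j = theK hC j := by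
  intro n
  induction n with
  | zero => intro j h; omega
  | succ n ih =>
    intro j h
    rcases Nat.lt_succ_iff_lt_or_eq.1 h with h' | h'
    · rw [preK, Function.update_of_ne h'.ne, ih j h']
    · subst h'; rfl

theorem theK_ge {p l : ℕ} (h : 2 * p + 1 ≤ l) :
    (2 : ℝ) ^ l * (((p : ℝ) + 1) * need hC p (fun j : Fin (2 * p + 1) => theK hC (j : ℕ))) ≤ theK hC l := by
  have e : theK hC l = nextK hC (preK hC l) l := by
    simp [theK, preK]
  rw [e, nextK]
  refine le_trans ?_ (Nat.le_ceil _)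
  gcongr
  have e2 : (fun j : Fin (2 * p + 1) => preK hC l (j : ℕ))
      = fun j : Fin (2 * p + 1) => theK hC (j : ℕ) :=
    funext fun j => preK_stable hC l j (lt_of_lt_of_le j.2 h)
  rw [← e2]
  exact Finset.single_le_sum (f := fun p : ℕ => ((p : ℝ) + 1) * need hC p (fun j : Fin (2 * p + 1) => preK hC l (j : ℕ)))
    (fun p _ => mul_nonneg (by positivity) (need_nonneg hC _ _))
    (Finset.mem_filter.2 ⟨Finset.mem_range.2 (by omega), h⟩)

theorem tail_bound (p m : ℕ) :
    need hC p (fun j : Fin (2 * p + 1) => theK hC (j : ℕ)) * ∑ l ∈ Finset.univ.filter (fun l : Fin m => 2 * p + 1 ≤ (l : ℕ)),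
      4 / ((theK hC l : ℝ) + 1) ≤ 8 / ((p : ℝ) + 1) := by
  rw [Finset.mul_sum]
  have hp : (0 : ℝ) < (p : ℝ) + 1 := by positivity
  calc ∑ l ∈ Finset.univ.filter (fun l : Fin m => 2 * p + 1 ≤ (l : ℕ)),
        need hC p (fun j : Fin (2 * p + 1) => theK hC (j : ℕ)) * (4 / ((theK hC l : ℝ) + 1))
      ≤ ∑ l ∈ Finset.univ.filter (fun l : Fin m => 2 * p + 1 ≤ (l : ℕ)),
        4 / ((p : ℝ) + 1) * (1 / 2) ^ (l : ℕ) := by
        refine Finset.sum_le_sum fun l hl => ?_
        have := theK_ge hC (Finset.mem_filter.1 hl).2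
        have hK : (0 : ℝ) < (theK hC l : ℝ) + 1 := by positivity
        rw [one_div, inv_pow, mul_div_assoc', div_mul_eq_mul_div, ← div_eq_mul_inv, div_div,
          div_le_div_iff₀ hK (by positivity)]
        nlinarith
    _ ≤ ∑ l : Fin m, 4 / ((p : ℝ) + 1) * (1 / 2) ^ (l : ℕ) :=
        Finset.sum_le_sum_of_subset_of_nonneg (Finset.subset_univ _) fun _ _ _ => by positivity
    _ ≤ 4 / ((p : ℝ) + 1) * 2 := by
        rw [← Finset.mul_sum]
        gcongr
        rw [Fin.sum_univ_eq_sum_range (fun l => (1 / 2 : ℝ) ^ l)]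
        exact sum_geometric_two_le m
    _ = 8 / ((p : ℝ) + 1) := by ring

end choice

theorem centralBinom_sq_le : ∀ p : ℕ, ((Nat.centralBinom p : ℝ) / 4 ^ p) ^ 2 * (p + 1) ≤ 1 := by
  intro p
  induction p with
  | zero => simp
  | succ p ih =>
    have h := Nat.succ_mul_centralBinom_succ p
    have h' : ((p : ℝ) + 1) * (Nat.centralBinom (p + 1) : ℝ) = 2 * (2 * p + 1) * Nat.centralBinom p := by
      exact_mod_cast h
    set c := (Nat.centralBinom p : ℝ) / 4 ^ p with hc
    have e : (Nat.centralBinom (p + 1) : ℝ) / 4 ^ (p + 1) = c * (2 * p + 1) / (2 * (p + 1)) := by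
      rw [hc, pow_succ]
      field_simp
      linear_combination 2 * h'
    rw [e, div_pow, mul_pow, div_mul_eq_mul_div, div_le_one (by positivity)]
    have hpoly : (2 * (p : ℝ) + 1) ^ 2 * (((p + 1 : ℕ) : ℝ) + 1) ≤ 4 * ((p : ℝ) + 1) ^ 3 := by
      push_cast
      nlinarith [(Nat.cast_nonneg p : (0 : ℝ) ≤ p)]
    calc c ^ 2 * (2 * (p : ℝ) + 1) ^ 2 * (((p + 1 : ℕ) : ℝ) + 1)
        ≤ c ^ 2 * (4 * ((p : ℝ) + 1) ^ 3) := by
          rw [mul_assoc]; gcongr
      _ = (c ^ 2 * (p + 1)) * (2 * ((p : ℝ) + 1)) ^ 2 := by ring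
      _ ≤ 1 * (2 * ((p : ℝ) + 1)) ^ 2 := by gcongr
      _ = _ := one_mul _

theorem tendsto_bound :
    Tendsto (fun p : ℕ => (Nat.centralBinom p : ℝ) / 4 ^ p + 65 / ((p : ℝ) + 1)) atTop (𝓝 0) := by
  have h1 : Tendsto (fun p : ℕ => 65 / ((p : ℝ) + 1)) atTop (𝓝 0) := by
    simpa [div_eq_mul_inv] using
      (tendsto_one_div_add_atTop_nhds_zero_nat (𝕜 := ℝ)).const_mul 65
  have h2 : Tendsto (fun p : ℕ => (Nat.centralBinom p : ℝ) / 4 ^ p) atTop (𝓝 0) := by
    have h3 : Tendsto (fun p : ℕ => Real.sqrt (1 / ((p : ℝ) + 1))) atTop (𝓝 0) := by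
      simpa [Function.comp_def] using (Real.continuous_sqrt.tendsto 0).comp
        (tendsto_one_div_add_atTop_nhds_zero_nat (𝕜 := ℝ))
    refine squeeze_zero (fun p => by positivity) (fun p => ?_) h3
    rw [← Real.sqrt_sq (show (0 : ℝ) ≤ (Nat.centralBinom p : ℝ) / 4 ^ p by positivity)]
    refine Real.sqrt_le_sqrt ?_
    rw [le_div_iff₀ (by positivity)]
    exact centralBinom_sq_le p
  simpa using h2.add h1

/-- the window estimate at one level -/
theorem bias_le (hC : CompactSpec) {K : ℕ → ℕ} {A : ∀ m, Lvl K m} {η : ℕ → ℝ}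
    (hA : IsApprox K A η) (hG : GaugeBound K A) (p m : ℕ) (h : 2 * p + 1 ≤ m)
    (i : Fin (2 * p + 1))
    (htail : need hC p (fun j => K j) *
      (∑ l ∈ Finset.univ.filter (fun l : Fin m => 2 * p + 1 ≤ (l : ℕ)), 4 / ((K l : ℝ) + 1))
        ≤ 8 / ((p : ℝ) + 1)) :
    lvlBias K (Fin.castLE h i) (A m) ≤ (Nat.centralBinom p : ℝ) / 4 ^ p
      + 65 / ((p : ℝ) + 1) + 2 * need hC p (fun j => K j) * η m ^ 2 := by
  classical
  obtain ⟨hη0, -, hpc, hk, hinv, -⟩ := hA
  set e := winEquiv K h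
  set A' := blk e (blockAt h (A m))
  set ν := ∑ l ∈ Finset.univ.filter (fun l : Fin m => 2 * p + 1 ≤ (l : ℕ)), 4 / ((K l : ℝ) + 1) with hν
  have hν0 : 0 ≤ ν := Finset.sum_nonneg fun l _ => by positivity
  have hD : nsq (A m - A') ≤ ν :=
    (nsq_sub_mask_le h (hk m)).trans (Finset.sum_le_sum fun l _ => hG m l)
  set C := bigC hC p (fun j => K j) with hCdef
  have hC1 : 1 ≤ C := bigC_pos hC p (fun j => K j)
  have hCs : (Real.sqrt C) ^ 2 = C := Real.sq_sqrt (by linarith)
  have key : ∀ f : Lab K m (2 * p + 1) → Matrix (Bits (2 * p + 1)) (Bits (2 * p + 1)) ℂ,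
      Commute (blk e f) (Tm K m) → (∀ Y, nsq (blk e f * Y) ≤ C * nsq Y) →
      (∀ Y, nsq (Y * blk e f) ≤ C * nsq Y) →
      (∑ r, nsq ((1 - blockAt h (A m) r) * f r * blockAt h (A m) r)) /
        (Fintype.card (Lab K m (2 * p + 1)) : ℝ) ≤ 2 * C * η m ^ 2 + 8 * C * ν := by
    intro f hf hl hr
    have h1 := hinv m _ (Real.sqrt C) hf (Real.sqrt_nonneg _) (by rwa [hCs]) (by rwa [hCs])
    rw [mul_pow, hCs] at h1
    have h2 := nsq_conj_le (hpc m) (posContr_mask h (hpc m)) (blk e f) hl hr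
    have e1 : (1 - A') * blk e f * A'
        = blk e fun r => (1 - blockAt h (A m) r) * f r * blockAt h (A m) r := by
      rw [← blk_one e, ← blk_sub, blk_mul, blk_mul]
      rfl
    rw [e1, nsq_blk] at h2
    have : 8 * C * nsq (A m - A') ≤ 8 * C * ν := by gcongr
    linarith
  have h0 : (∑ r, nsq (blockAt h (A m) r - blockAt h (A m) r * blockAt h (A m) r)) /
      (Fintype.card (Lab K m (2 * p + 1)) : ℝ) ≤ 2 * C * η m ^ 2 + 8 * C * ν := by
    have hone : blk e (fun _ => (1 : Matrix (Bits (2 * p + 1)) (Bits (2 * p + 1)) ℂ)) = 1 := blk_one e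
    have := key (fun _ => 1) (by rw [hone]; exact Commute.one_left _)
      (fun Y => by rw [hone, one_mul]; exact le_mul_of_one_le_left (nsq_nonneg _) hC1)
      (fun Y => by rw [hone, mul_one]; exact le_mul_of_one_le_left (nsq_nonneg _) hC1)
    simpa [sub_mul] using this
  have hfrob : ∀ (q : Bits (2 * p + 1) × Bits (2 * p + 1)) (r : Lab K m (2 * p + 1)),
      ∑ v, ∑ u, ‖cB hC (winK h r : (j : Fin (2 * p + 1)) → Fin (K (j : ℕ) + 1)) i q v u‖ ^ 2 ≤ Real.sqrt C ^ 2 := by
    intro q r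
    rw [hCs, hCdef, bigC]
    set F := fun (k : (j : Fin (2 * p + 1)) → Fin (K (j : ℕ) + 1)) (i : Fin (2 * p + 1)) (q : Bits (2 * p + 1) × Bits (2 * p + 1)) =>
      ∑ v, ∑ u, ‖cB hC k i q v u‖ ^ 2
    have hF : ∀ k i q, 0 ≤ F k i q := fun k i q => by positivity
    calc F (winK h r) i q ≤ ∑ q', F (winK h r) i q' :=
          Finset.single_le_sum (fun q' _ => hF _ _ q') (Finset.mem_univ q)
      _ ≤ ∑ i', ∑ q', F (winK h r) i' q' :=
          Finset.single_le_sum (f := fun i' => ∑ q', F (winK h r) i' q')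
            (fun i' _ => Finset.sum_nonneg fun q' _ => hF _ _ q') (Finset.mem_univ i)
      _ ≤ ∑ k, ∑ i', ∑ q', F k i' q' :=
          Finset.single_le_sum (f := fun k => ∑ i', ∑ q', F k i' q')
            (fun k _ => Finset.sum_nonneg fun i' _ => Finset.sum_nonneg fun q' _ => hF _ _ q')
            (Finset.mem_univ (winK h r : (j : Fin (2 * p + 1)) → Fin (K (j : ℕ) + 1)))
      _ ≤ 1 + ∑ k, ∑ i', ∑ q', F k i' q' := by linarith
  have hq : ∀ q : Bits (2 * p + 1) × Bits (2 * p + 1), (∑ r, nsq ((1 - blockAt h (A m) r) *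
      cB hC (winK h r : (j : Fin (2 * p + 1)) → Fin (K (j : ℕ) + 1)) i q * blockAt h (A m) r)) /
      (Fintype.card (Lab K m (2 * p + 1)) : ℝ) ≤ 2 * C * η m ^ 2 + 8 * C * ν := by
    intro q
    have hl := nsq_blk_mul_le e (fun r => cB hC (winK h r : (j : Fin (2 * p + 1)) → Fin (K (j : ℕ) + 1)) i q)
      (Real.sqrt C) (hfrob q)
    have hr := nsq_mul_blk_le e (fun r => cB hC (winK h r : (j : Fin (2 * p + 1)) → Fin (K (j : ℕ) + 1)) i q)
      (Real.sqrt C) (hfrob q)
    exact key _ (commute_Tm h (fun k => cB hC (k : (j : Fin (2 * p + 1)) → Fin (K (j : ℕ) + 1)) i q)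
      fun k => (c_spec hC (Kf := fun j => K j) k i).2.1 q)
      (fun Y => (hl Y).trans_eq (by rw [hCs])) (fun Y => (hr Y).trans_eq (by rw [hCs]))
  set c := (Nat.centralBinom p : ℝ) / 4 ^ p + 1 / ((p : ℝ) + 1) with hc
  set L := bigL hC p (fun j => K j) with hL
  have hL0 : 0 ≤ L := bigL_nonneg hC p (fun j => K j)
  set G : Lab K m (2 * p + 1) → ℝ := fun r =>
    nsq (blockAt h (A m) r - blockAt h (A m) r * blockAt h (A m) r) + ∑ q, nsq ((1 - blockAt h (A m) r)
      * cB hC (winK h r : (j : Fin (2 * p + 1)) → Fin (K (j : ℕ) + 1)) i q * blockAt h (A m) r)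
  have hb : ∀ r, bias i (blockAt h (A m) r) ≤ c + L * G r := by
    intro r
    refine ((c_spec hC (Kf := fun j => K j) (winK h r) i).2.2 _ (posContr_blockAt h (hpc m) r)).trans ?_
    refine add_le_add_right (mul_le_mul_of_nonneg_right ?_ ?_) _
    · refine le_trans ?_ (Finset.single_le_sum
        (f := fun k : (j : Fin (2 * p + 1)) → Fin (K (j : ℕ) + 1) => ∑ i', cL hC k i')
        (fun k _ => Finset.sum_nonneg fun i' _ => (c_spec hC k i').1)
        (Finset.mem_univ (winK h r : (j : Fin (2 * p + 1)) → Fin (K (j : ℕ) + 1))))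
      exact Finset.single_le_sum (fun i' _ => (c_spec hC (Kf := fun j => K j) (winK h r) i').1)
        (Finset.mem_univ i)
    · exact add_nonneg (nsq_nonneg _) (Finset.sum_nonneg fun q _ => nsq_nonneg _)
  have hR : (0 : ℝ) < Fintype.card (Lab K m (2 * p + 1)) := by exact_mod_cast Fintype.card_pos
  have hGs : (∑ r, G r) / (Fintype.card (Lab K m (2 * p + 1)) : ℝ) ≤
      ((Fintype.card (Bits (2 * p + 1) × Bits (2 * p + 1)) : ℝ) + 1) * (2 * C * η m ^ 2 + 8 * C * ν) := by
    simp only [G, Finset.sum_add_distrib, add_div]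
    rw [Finset.sum_comm]
    refine (add_le_add h0 (((Finset.sum_div _ _ _).trans_le (Finset.sum_le_sum fun q _ => hq q)))).trans_eq ?_
    simp only [Finset.sum_const, Finset.card_univ, nsmul_eq_mul]
    ring
  have hmain : lvlBias K (Fin.castLE h i) (A m) ≤
      c + L * (((Fintype.card (Bits (2 * p + 1) × Bits (2 * p + 1)) : ℝ) + 1) * (2 * C * η m ^ 2 + 8 * C * ν)) := by
    rw [lvlBias_eq h i]
    refine le_trans ?_ (add_le_add le_rfl (mul_le_mul_of_nonneg_left hGs hL0))
    rw [div_le_iff₀ hR, add_mul, mul_div_assoc', div_mul_cancel₀ _ hR.ne', Finset.mul_sum]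
    refine (Finset.sum_le_sum fun r _ => hb r).trans_eq ?_
    simp [Finset.sum_add_distrib, mul_comm]
  have ht : need hC p (fun j => K j) * ν ≤ 8 / ((p : ℝ) + 1) := htail
  have hfin : L * (((Fintype.card (Bits (2 * p + 1) × Bits (2 * p + 1)) : ℝ) + 1) * (2 * C * η m ^ 2 + 8 * C * ν))
      = 2 * need hC p (fun j => K j) * η m ^ 2 + 8 * (need hC p (fun j => K j) * ν) := by
    simp only [need, ← hL, ← hCdef]
    ring
  rw [hfin, hc] at hmain
  refine hmain.trans ?_
  have : 8 * (need hC p (fun j => K j) * ν) ≤ 64 / ((p : ℝ) + 1) := by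
    calc _ ≤ 8 * (8 / ((p : ℝ) + 1)) := by gcongr
      _ = _ := by ring
  have e65 : (65 : ℝ) / ((p : ℝ) + 1) = 1 / ((p : ℝ) + 1) + 64 / ((p : ℝ) + 1) := by ring
  rw [e65]
  linarith

end Win

open Win in
/-- the window estimate and the choice of `K` -/
theorem windowSpec : WindowSpec := by
  intro hC
  refine ⟨theK hC, fun A η hA hG l ε hε => ?_⟩
  obtain ⟨p, hp, hlp⟩ := ((tendsto_bound.eventually_le_const (half_pos hε)).and
    (eventually_ge_atTop l)).exists
  have hη : Tendsto (fun m => 2 * need hC p (fun j : Fin (2 * p + 1) => theK hC (j : ℕ)) * η m ^ 2) atTop (𝓝 0) := by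
    simpa using (hA.2.1.pow 2).const_mul (2 * need hC p (fun j : Fin (2 * p + 1) => theK hC (j : ℕ)))
  filter_upwards [hη.eventually_le_const (half_pos hε), eventually_ge_atTop (2 * p + 1)]
    with m hm hmp h
  have := bias_le hC hA hG p m hmp ⟨l, by omega⟩ (tail_bound hC p m)
  rw [show (⟨l, h⟩ : Fin m) = Fin.castLE hmp ⟨l, by omega⟩ from rfl]
  linarith

end

end Vale.Agent.P131
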